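/-
Row 324 (S0582), PDE core, module PR (architect helper489), file Sm: the calculus of the class `Sm` (smooth on `(-∞,0) × ℝ`).      SORRY-FREE.
`Sm f = E2Sm 0 f`, `dY = e2Pdx`, `dT = e2Pdt` definitionally, so everything of `R324/E2/PdA.lean`, `PdB.lean` applies.
CONTENTS
 * closure: `sm_const, sm_fst, sm_snd, sm_Xf, sm_of_y, sm_of_t, Sm.add/sub/neg/mul/pow/const_mul/mul_const/div_const/comp/exp/inv/div/log/sqrt, sm_sum, Sm.congr, sm_of_eventuallyEq`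
 * derivatives: `Sm.dY, Sm.dT, Sm.dY_iter, Sm.dT_iter, Sm.dT_dY (commutation), Sm.DD, Sm.ttF`
 * slices: `Sm.sl, Sm.slice_t, Sm.hasDerivAt_y, Sm.hasDerivAt_t, Sm.mono_Ioo, Sm.continuousOn, Sm.bdd`
 * rules (at a point `(t,y)`, `t < 0`): `dY_congr, dT_congr, dY_add, dY_sub, dY_neg, dY_mul, dY_const_mul, dY_const, dY_snd, dY_Xf, dY_comp, dY_exp, dY_inv, dY_of_hasDerivAt`, the same for `dT`.
 * `tt (sl f t) y = ttF f (t,y)`,   `iteratedDeriv j (sl f t) y = dY^[j] f (t,y)`.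
-/
import Claimed.Agent.R324.Core.Bgd
import Claimed.Agent.R324.E2.PdB

set_option autoImplicit false

namespace Claimed.Agent.R324.Core

open Set Filter Topology
open scoped ContDiff

noncomputable section

variable {f g : Fn} {t y : ℝ}

/-! ### bridge to the engine calculus -/

theorem Sm.e2 (h : Sm f) : E2Sm 0 f := h

theorem sm_of_e2 (h : E2Sm 0 f) : Sm f := h

theorem dY_eq_e2Pdx (f : Fn) : dY f = e2Pdx f := rfl

theorem dT_eq_e2Pdt (f : Fn) : dT f = e2Pdt f := rfl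

/-! ### closure properties -/

theorem Sm.contDiffAt (h : Sm f) {p : ℝ × ℝ} (hp : p.1 < 0) : ContDiffAt ℝ ∞ f p :=
  E2Sm.contDiffAt h hp

theorem sm_of_contDiffAt (h : ∀ p : ℝ × ℝ, p.1 < 0 → ContDiffAt ℝ ∞ f p) : Sm f :=
  e2Sm_of_contDiffAt h

theorem Sm.congr (h : Sm f) (hfg : ∀ t < 0, ∀ y, g (t, y) = f (t, y)) : Sm g :=
  E2Sm.congr h hfg

/-- smoothness is local: near every point `f` coincides with a function which is smooth at that point. -/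
theorem sm_of_eventuallyEq (h : ∀ p : ℝ × ℝ, p.1 < 0 → ∃ g : Fn, ContDiffAt ℝ ∞ g p ∧ f =ᶠ[𝓝 p] g) : Sm f :=
  sm_of_contDiffAt fun p hp => by
    obtain ⟨g, hg, hfg⟩ := h p hp
    exact hg.congr_of_eventuallyEq hfg

theorem sm_const (c : ℝ) : Sm (fun _ => c) := contDiffOn_const

theorem sm_fst : Sm (fun p => p.1) := contDiff_fst.contDiffOn

theorem sm_snd : Sm (fun p => p.2) := contDiff_snd.contDiffOn

theorem Sm.add (hf : Sm f) (hg : Sm g) : Sm (fun p => f p + g p) := ContDiffOn.add hf hg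

theorem Sm.sub (hf : Sm f) (hg : Sm g) : Sm (fun p => f p - g p) := ContDiffOn.sub hf hg

theorem Sm.neg (hf : Sm f) : Sm (fun p => -f p) := ContDiffOn.neg hf

theorem Sm.mul (hf : Sm f) (hg : Sm g) : Sm (fun p => f p * g p) := ContDiffOn.mul hf hg

theorem Sm.pow (hf : Sm f) (n : ℕ) : Sm (fun p => f p ^ n) := ContDiffOn.pow hf n

theorem Sm.const_mul (c : ℝ) (hf : Sm f) : Sm (fun p => c * f p) := (sm_const c).mul hf

theorem Sm.mul_const (hf : Sm f) (c : ℝ) : Sm (fun p => f p * c) := hf.mul (sm_const c)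

theorem Sm.div_const (hf : Sm f) (c : ℝ) : Sm (fun p => f p / c) := ContDiffOn.div_const hf c

theorem sm_sum {ι : Type} (s : Finset ι) {F : ι → Fn} (h : ∀ k ∈ s, Sm (F k)) :
    Sm (fun p => ∑ k ∈ s, F k p) := ContDiffOn.sum h

theorem sm_of_y {φ : ℝ → ℝ} (hφ : ContDiff ℝ ∞ φ) : Sm (fun p => φ p.2) :=
  (hφ.comp contDiff_snd).contDiffOn

theorem sm_of_t {φ : ℝ → ℝ} (hφ : ContDiffOn ℝ ∞ φ (Iio 0)) : Sm (fun p => φ p.1) :=
  ContDiffOn.comp hφ contDiff_fst.contDiffOn (fun _ hp => hp.1)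

theorem sm_Xf : Sm (fun p => Xf p.2) := by
  unfold Xf
  exact (sm_const 1).sub (sm_snd.pow 2)

theorem Sm.comp {φ : ℝ → ℝ} (hφ : ContDiff ℝ ∞ φ) (hf : Sm f) : Sm (fun p => φ (f p)) :=
  hφ.comp_contDiffOn hf

theorem Sm.exp (hf : Sm f) : Sm (fun p => Real.exp (f p)) := ContDiffOn.exp hf

theorem Sm.inv (hf : Sm f) (h0 : ∀ t < 0, ∀ y, f (t, y) ≠ 0) : Sm (fun p => (f p)⁻¹) :=
  ContDiffOn.inv hf (fun p hp => h0 p.1 hp.1 p.2)

theorem Sm.div (hf : Sm f) (hg : Sm g) (h0 : ∀ t < 0, ∀ y, g (t, y) ≠ 0) : Sm (fun p => f p / g p) :=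
  ContDiffOn.div hf hg (fun p hp => h0 p.1 hp.1 p.2)

theorem Sm.log (hf : Sm f) (h0 : ∀ t < 0, ∀ y, f (t, y) ≠ 0) : Sm (fun p => Real.log (f p)) :=
  ContDiffOn.log hf (fun p hp => h0 p.1 hp.1 p.2)

theorem Sm.sqrt (hf : Sm f) (h0 : ∀ t < 0, ∀ y, f (t, y) ≠ 0) : Sm (fun p => Real.sqrt (f p)) :=
  ContDiffOn.sqrt hf (fun p hp => h0 p.1 hp.1 p.2)

/-! ### derivatives -/

theorem Sm.dY (h : Sm f) : Sm (dY f) := E2Sm.pdx h

theorem Sm.dT (h : Sm f) : Sm (dT f) := E2Sm.pdt h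

theorem Sm.dY_iter (h : Sm f) (j : ℕ) : Sm (Core.dY^[j] f) := E2Sm.pdx_iter h j

theorem Sm.dT_iter (h : Sm f) (i : ℕ) : Sm (Core.dT^[i] f) := E2Sm.pdt_iter h i

/-- `∂_t ∂_y = ∂_y ∂_t`. -/
theorem Sm.dT_dY (h : Sm f) (ht : t < 0) (y : ℝ) :
    Core.dT (Core.dY f) (t, y) = Core.dY (Core.dT f) (t, y) := E2Sm.pd_comm h t ht y

theorem Sm.DD (h : Sm f) : Sm (DD f) := by
  unfold Core.DD
  exact (sm_Xf.mul h.dY.dY).sub (sm_snd.mul h.dY)

/-- `tt` on functions of `(t,y)`. -/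
def ttF (f : Fn) : Fn := fun p => -(Xf p.2) * dY f p

theorem Sm.ttF (h : Sm f) : Sm (ttF f) := by
  unfold Core.ttF
  exact sm_Xf.neg.mul h.dY

theorem tt_sl (f : Fn) (t y : ℝ) : tt (sl f t) y = ttF f (t, y) := rfl

theorem sl_ttF (f : Fn) (t : ℝ) : sl (ttF f) t = tt (sl f t) := rfl

theorem tt_iter_sl (f : Fn) (t : ℝ) (j : ℕ) : tt^[j] (sl f t) = sl (ttF^[j] f) t := by
  induction j with
  | zero => rfl
  | succ j ih => rw [Function.iterate_succ_apply', Function.iterate_succ_apply', ih, sl_ttF]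

theorem Sm.ttF_iter (h : Sm f) (j : ℕ) : Sm (Core.ttF^[j] f) := by
  induction j with
  | zero => exact h
  | succ j ih =>
    rw [Function.iterate_succ_apply']
    exact ih.ttF

theorem iteratedDeriv_sl (j : ℕ) (f : Fn) (t y : ℝ) : iteratedDeriv j (sl f t) y = dY^[j] f (t, y) :=
  (e2Pdx_iter_eq_iteratedDeriv j f t y).symm

/-! ### slices -/

theorem Sm.sl (h : Sm f) (ht : t < 0) : ContDiff ℝ ∞ (sl f t) := E2Sm.slice_x h ht

theorem Sm.slice_t (h : Sm f) (y : ℝ) : ContDiffOn ℝ ∞ (fun s => f (s, y)) (Iio 0) := E2Sm.slice_t h y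

theorem Sm.hasDerivAt_y (h : Sm f) (ht : t < 0) (y : ℝ) :
    HasDerivAt (fun z => f (t, z)) (Core.dY f (t, y)) y := E2Sm.hasDerivAt_x h ht y

theorem Sm.hasDerivAt_t (h : Sm f) (ht : t < 0) (y : ℝ) :
    HasDerivAt (fun s => f (s, y)) (Core.dT f (t, y)) t := E2Sm.hasDerivAt_t h ht y

theorem Sm.mono_Ioo (h : Sm f) (t₀ : ℝ) : ContDiffOn ℝ ∞ f (Ioo t₀ 0 ×ˢ (univ : Set ℝ)) :=
  ContDiffOn.mono h (fun _ hp => ⟨hp.1.2, mem_univ _⟩)

theorem Sm.continuousOn (h : Sm f) : ContinuousOn f (Iio (0 : ℝ) ×ˢ (univ : Set ℝ)) :=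
  ContDiffOn.continuousOn h

/-- bounded on compact rectangles. -/
theorem Sm.bdd (h : Sm f) (s₀ : ℝ) {s₂ : ℝ} (h₂ : s₂ < 0) (a b : ℝ) :
    ∃ C : ℝ, 0 ≤ C ∧ ∀ t ∈ Icc s₀ s₂, ∀ y ∈ Icc a b, |f (t, y)| ≤ C := by
  have hK : IsCompact (Icc s₀ s₂ ×ˢ Icc a b) := isCompact_Icc.prod isCompact_Icc
  have hc : ContinuousOn f (Icc s₀ s₂ ×ˢ Icc a b) :=
    h.continuousOn.mono (fun p hp => ⟨lt_of_le_of_lt hp.1.2 h₂, mem_univ _⟩)
  obtain ⟨C, hC⟩ := hK.exists_bound_of_continuousOn hc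
  refine ⟨max C 0, le_max_right _ _, fun t ht y hy => ?_⟩
  have := hC (t, y) ⟨ht, hy⟩
  rw [Real.norm_eq_abs] at this
  exact this.trans (le_max_left _ _)

/-! ### rules for `dY` -/

theorem dY_of_hasDerivAt {d : ℝ} (h : HasDerivAt (fun z => f (t, z)) d y) : dY f (t, y) = d := h.deriv

theorem dT_of_hasDerivAt {d : ℝ} (h : HasDerivAt (fun s => f (s, y)) d t) : dT f (t, y) = d := h.deriv

/-- `dY f (t,y)` only depends on the slice of `f` at time `t`. -/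
theorem dY_congr (h : ∀ z, f (t, z) = g (t, z)) (y : ℝ) : dY f (t, y) = dY g (t, y) := by
  have he : (fun z => f (t, z)) = (fun z => g (t, z)) := funext h
  show deriv (fun z => f (t, z)) y = deriv (fun z => g (t, z)) y
  rw [he]

/-- local version. -/
theorem dY_congr_of_eventuallyEq (h : (fun z => f (t, z)) =ᶠ[𝓝 y] (fun z => g (t, z))) :
    dY f (t, y) = dY g (t, y) := h.deriv_eq

theorem dT_congr (h : ∀ s < 0, f (s, y) = g (s, y)) (ht : t < 0) : dT f (t, y) = dT g (t, y) := by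
  have he : (fun s => f (s, y)) =ᶠ[𝓝 t] (fun s => g (s, y)) := by
    filter_upwards [Iio_mem_nhds ht] with s hs
    exact h s hs
  exact he.deriv_eq

theorem dY_const (c : ℝ) (p : ℝ × ℝ) : dY (fun _ => c) p = 0 := deriv_const _ _

theorem dT_const (c : ℝ) (p : ℝ × ℝ) : dT (fun _ => c) p = 0 := deriv_const _ _

theorem dY_snd (p : ℝ × ℝ) : dY (fun p => p.2) p = 1 := (hasDerivAt_id p.2).deriv

theorem hasDerivAt_Xf (y : ℝ) : HasDerivAt Xf (-2 * y) y := by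
  have h : HasDerivAt (fun z : ℝ => 1 - z * z) (0 - (1 * y + y * 1)) y :=
    (hasDerivAt_const y (1 : ℝ)).sub ((hasDerivAt_id' y).mul (hasDerivAt_id' y))
  have e1 : Xf = fun z : ℝ => 1 - z * z := by
    funext z
    unfold Xf
    ring
  have e2 : -2 * y = 0 - (1 * y + y * 1) := by ring
  rw [e1, e2]
  exact h

theorem dY_Xf (p : ℝ × ℝ) : dY (fun p => Xf p.2) p = -2 * p.2 := (hasDerivAt_Xf p.2).deriv

theorem dT_of_y (φ : ℝ → ℝ) (p : ℝ × ℝ) : dT (fun p => φ p.2) p = 0 :=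
  deriv_const p.1 (φ p.2)

theorem dY_of_t (φ : ℝ → ℝ) (p : ℝ × ℝ) : dY (fun p => φ p.1) p = 0 :=
  deriv_const p.2 (φ p.1)

theorem dY_add (hf : Sm f) (hg : Sm g) (ht : t < 0) (y : ℝ) :
    dY (fun p => f p + g p) (t, y) = dY f (t, y) + dY g (t, y) :=
  ((hf.hasDerivAt_y ht y).add (hg.hasDerivAt_y ht y)).deriv

theorem dY_sub (hf : Sm f) (hg : Sm g) (ht : t < 0) (y : ℝ) :
    dY (fun p => f p - g p) (t, y) = dY f (t, y) - dY g (t, y) :=
  ((hf.hasDerivAt_y ht y).sub (hg.hasDerivAt_y ht y)).deriv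

theorem dY_neg (hf : Sm f) (ht : t < 0) (y : ℝ) : dY (fun p => -f p) (t, y) = -dY f (t, y) :=
  (hf.hasDerivAt_y ht y).neg.deriv

theorem dY_mul (hf : Sm f) (hg : Sm g) (ht : t < 0) (y : ℝ) :
    dY (fun p => f p * g p) (t, y) = dY f (t, y) * g (t, y) + f (t, y) * dY g (t, y) :=
  ((hf.hasDerivAt_y ht y).mul (hg.hasDerivAt_y ht y)).deriv

theorem dY_const_mul (c : ℝ) (hf : Sm f) (ht : t < 0) (y : ℝ) :
    dY (fun p => c * f p) (t, y) = c * dY f (t, y) :=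
  ((hf.hasDerivAt_y ht y).const_mul c).deriv

theorem dY_comp {φ : ℝ → ℝ} (hφ : Differentiable ℝ φ) (hf : Sm f) (ht : t < 0) (y : ℝ) :
    dY (fun p => φ (f p)) (t, y) = deriv φ (f (t, y)) * dY f (t, y) :=
  ((hφ (f (t, y))).hasDerivAt.comp y (hf.hasDerivAt_y ht y)).deriv

theorem dY_exp (hf : Sm f) (ht : t < 0) (y : ℝ) :
    dY (fun p => Real.exp (f p)) (t, y) = Real.exp (f (t, y)) * dY f (t, y) :=
  (hf.hasDerivAt_y ht y).exp.deriv

theorem dY_inv (hf : Sm f) (ht : t < 0) (y : ℝ) (h0 : f (t, y) ≠ 0) :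
    dY (fun p => (f p)⁻¹) (t, y) = -dY f (t, y) / f (t, y) ^ 2 :=
  ((hf.hasDerivAt_y ht y).fun_inv h0).deriv

theorem dY_log (hf : Sm f) (ht : t < 0) (y : ℝ) (h0 : f (t, y) ≠ 0) :
    dY (fun p => Real.log (f p)) (t, y) = dY f (t, y) / f (t, y) :=
  ((hf.hasDerivAt_y ht y).log h0).deriv

/-! ### rules for `dT` -/

theorem dT_add (hf : Sm f) (hg : Sm g) (ht : t < 0) (y : ℝ) :
    dT (fun p => f p + g p) (t, y) = dT f (t, y) + dT g (t, y) :=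
  ((hf.hasDerivAt_t ht y).add (hg.hasDerivAt_t ht y)).deriv

theorem dT_sub (hf : Sm f) (hg : Sm g) (ht : t < 0) (y : ℝ) :
    dT (fun p => f p - g p) (t, y) = dT f (t, y) - dT g (t, y) :=
  ((hf.hasDerivAt_t ht y).sub (hg.hasDerivAt_t ht y)).deriv

theorem dT_neg (hf : Sm f) (ht : t < 0) (y : ℝ) : dT (fun p => -f p) (t, y) = -dT f (t, y) :=
  (hf.hasDerivAt_t ht y).neg.deriv

theorem dT_mul (hf : Sm f) (hg : Sm g) (ht : t < 0) (y : ℝ) :
    dT (fun p => f p * g p) (t, y) = dT f (t, y) * g (t, y) + f (t, y) * dT g (t, y) :=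
  ((hf.hasDerivAt_t ht y).mul (hg.hasDerivAt_t ht y)).deriv

theorem dT_const_mul (c : ℝ) (hf : Sm f) (ht : t < 0) (y : ℝ) :
    dT (fun p => c * f p) (t, y) = c * dT f (t, y) :=
  ((hf.hasDerivAt_t ht y).const_mul c).deriv

/-- multiplication by a function of `y`. -/
theorem dT_y_mul (φ : ℝ → ℝ) (hf : Sm f) (ht : t < 0) (y : ℝ) :
    dT (fun p => φ p.2 * f p) (t, y) = φ y * dT f (t, y) :=
  ((hf.hasDerivAt_t ht y).const_mul (φ y)).deriv

theorem dT_comp {φ : ℝ → ℝ} (hφ : Differentiable ℝ φ) (hf : Sm f) (ht : t < 0) (y : ℝ) :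
    dT (fun p => φ (f p)) (t, y) = deriv φ (f (t, y)) * dT f (t, y) :=
  ((hφ (f (t, y))).hasDerivAt.comp t (hf.hasDerivAt_t ht y)).deriv

theorem dT_exp (hf : Sm f) (ht : t < 0) (y : ℝ) :
    dT (fun p => Real.exp (f p)) (t, y) = Real.exp (f (t, y)) * dT f (t, y) :=
  (hf.hasDerivAt_t ht y).exp.deriv

theorem dT_inv (hf : Sm f) (ht : t < 0) (y : ℝ) (h0 : f (t, y) ≠ 0) :
    dT (fun p => (f p)⁻¹) (t, y) = -dT f (t, y) / f (t, y) ^ 2 :=
  ((hf.hasDerivAt_t ht y).fun_inv h0).deriv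

theorem dT_log (hf : Sm f) (ht : t < 0) (y : ℝ) (h0 : f (t, y) ≠ 0) :
    dT (fun p => Real.log (f p)) (t, y) = dT f (t, y) / f (t, y) :=
  ((hf.hasDerivAt_t ht y).log h0).deriv

/-- hygiene. -/
theorem core_pr_sm_hygiene : True := by
  have := @ttF.eq_1
  trivial

end

end Claimed.Agent.R324.Core
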