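/-
Row 324 (S0582), PDE core, module PR (architect helper489), file Ph  (PR1): the entire functions `Ph1 s = (1 - e^{-s})/s`, `Ph2 s = (s - 1 + e^{-s})/s²`.
`Ph1 s = ∫_0^1 e^{-s r} dr`,  `Ph2 s = ∫_0^1 (1-r) e^{-s r} dr`   (Core/Defs.lean).
PROOFS.
 * `ph1_mul`: for `s ≠ 0` the primitive of `r ↦ e^{-s r}` is `-e^{-s r}/s` (`integral_eq_sub_of_hasDerivAt`, or `intervalIntegral.integral_comp_mul_left` + `integral_exp`); `s = 0` trivial.
 * `ph2_mul`: primitive of `(1-r) e^{-s r}` is `-(1-r) e^{-s r}/s + e^{-s r}/s²` (`s ≠ 0`); `s = 0` trivial.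
 * `ph1_ph2`: `s = 0`: `Ph1 0 = 1`.  `s ≠ 0`: multiply by `s` (`mul_left_cancel₀`), `ph1_mul`, `ph2_mul`.
 * `ph1_pos`: `intervalIntegral.intervalIntegral_pos_of_pos` (continuous positive integrand).
 * smoothness.  Route A (power series / analyticity): `Ph1 = dslope (fun s => -exp (-s)) 0` up to sign: for `s ≠ 0` quotient of smooth functions, at `0` use the analytic `dslope`
   (`HasFPowerSeriesAt.has_fpower_series_dslope_fslope`, `AnalyticAt.contDiffAt`).
   Route B (recommended): prove by induction on `n` the statement `∀ k : ℕ, ContDiff ℝ n (phK k)` for `phK k c s = ∫_0^1 c(r) r^k e^{-s r} dr` with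
   `HasDerivAt (phK k) (- phK (k+1) s) s` (`intervalIntegral.hasDerivAt_integral_of_dominated_loc_of_deriv_le`, domination on `|s' - s| < 1` by `e^{|s|+1}`), `contDiff_succ_iff_deriv`, then `contDiff_infty`.
   The helper `phG c k` below is set up for this: `Ph1 = phG (fun _ => 1) 0`, `Ph2 = phG (fun r => 1 - r) 0`.
 * bounds for `|s| ≤ 1`: `|e^{-s r}| ≤ e ≤ 3` for `r ∈ [0,1]`; `norm_integral_le_of_norm_le_const`;  `Ph1 s - 1 = -s Ph2 s`, and `|Ph2 s| ≤ ∫ (1-r) e = e/2 ≤ 3/2`… any proof is fine;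
   `deriv Ph1 s = - phG (fun _ => 1) 1 s`, `deriv Ph2 s = - phG (fun r => 1 - r) 1 s`.
Statements FROZEN.  Helper lemmas: prefix `ph_`.
-/
import Claimed.Agent.R324.Core.PR.Sm

set_option autoImplicit false

namespace Claimed.Agent.R324.Core

open Set Filter Topology MeasureTheory
open scoped ContDiff

noncomputable section

/-- `∫_0^1 c(r) r^k e^{-s r} dr`. -/
def phG (c : ℝ → ℝ) (k : ℕ) (s : ℝ) : ℝ := ∫ r in (0 : ℝ)..1, c r * r ^ k * Real.exp (-s * r)

theorem ph1_eq_phG : Ph1 = phG (fun _ => 1) 0 := by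
  funext s
  simp [Ph1, phG]

theorem ph2_eq_phG : Ph2 = phG (fun r => 1 - r) 0 := by
  funext s
  simp [Ph2, phG]

/-! ### part A: differentiation under the integral, smoothness -/

theorem ph_a_exp_le {r : ℝ} (hr : r ∈ Icc (0 : ℝ) 1) (x : ℝ) :
    Real.exp (-x * r) ≤ Real.exp |x| := by
  refine Real.exp_le_exp.2 ?_
  have h1 : -x ≤ |x| := neg_le_abs x
  have h2 : -x * r ≤ |x| * r := mul_le_mul_of_nonneg_right h1 hr.1
  have h3 : |x| * r ≤ |x| * 1 := mul_le_mul_of_nonneg_left hr.2 (abs_nonneg x)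
  linarith

theorem phG_hasDerivAt {c : ℝ → ℝ} (hc : Continuous c) (k : ℕ) (s : ℝ) :
    HasDerivAt (phG c k) (-phG c (k + 1) s) s := by
  have hcont : ∀ (j : ℕ) (x : ℝ), Continuous fun r : ℝ => c r * r ^ j * Real.exp (-x * r) := by
    intro j x
    fun_prop
  have key := intervalIntegral.hasDerivAt_integral_of_dominated_loc_of_deriv_le
    (μ := volume) (a := (0 : ℝ)) (b := 1)
    (F := fun x r => c r * r ^ k * Real.exp (-x * r))
    (F' := fun x r => -(c r * r ^ (k + 1) * Real.exp (-x * r)))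
    (x₀ := s) (s := Metric.ball s 1)
    (bound := fun r => |c r| * Real.exp (|s| + 1))
    (Metric.ball_mem_nhds s one_pos)
    (Filter.Eventually.of_forall fun x => (hcont k x).aestronglyMeasurable)
    ((hcont k s).intervalIntegrable 0 1)
    ((hcont (k + 1) s).neg.aestronglyMeasurable)
    (Filter.Eventually.of_forall fun r hr x hx => ?_)
    ((hc.abs.mul continuous_const).intervalIntegrable 0 1)
    (Filter.Eventually.of_forall fun r _ x _ => ?_)
  · have h2 := key.2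
    rw [intervalIntegral.integral_neg] at h2
    exact h2
  · rw [uIoc_of_le zero_le_one] at hr
    have hx' : |x| ≤ |s| + 1 := by
      rw [Metric.mem_ball, Real.dist_eq] at hx
      have := abs_sub_abs_le_abs_sub x s
      linarith
    have h1 := ph_a_exp_le ⟨hr.1.le, hr.2⟩ x
    have h2 : Real.exp (-x * r) ≤ Real.exp (|s| + 1) := h1.trans (Real.exp_le_exp.2 hx')
    have h3 : r ^ (k + 1) ≤ 1 := pow_le_one₀ hr.1.le hr.2
    have h4 : 0 ≤ r ^ (k + 1) := pow_nonneg hr.1.le _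
    rw [norm_neg, Real.norm_eq_abs, abs_mul, abs_mul, abs_of_nonneg h4,
      abs_of_nonneg (Real.exp_pos _).le]
    calc |c r| * r ^ (k + 1) * Real.exp (-x * r) ≤ |c r| * 1 * Real.exp (|s| + 1) :=
          mul_le_mul (mul_le_mul_of_nonneg_left h3 (abs_nonneg _)) h2 (Real.exp_pos _).le
            (by positivity)
      _ = |c r| * Real.exp (|s| + 1) := by ring
  · have h1 : HasDerivAt (fun x : ℝ => -x * r) (-1 * r) x := (hasDerivAt_id x).neg.mul_const r
    have h2 := (h1.exp).const_mul (c r * r ^ k)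
    have h3 : c r * r ^ k * (Real.exp (-x * r) * (-1 * r))
        = -(c r * r ^ (k + 1) * Real.exp (-x * r)) := by ring
    rw [h3] at h2
    exact h2

theorem phG_contDiff {c : ℝ → ℝ} (hc : Continuous c) (k : ℕ) : ContDiff ℝ ∞ (phG c k) := by
  have key : ∀ n : ℕ, ∀ k, ContDiff ℝ n (phG c k) := by
    intro n
    induction n with
    | zero =>
      intro k
      exact contDiff_zero.2
        (continuous_iff_continuousAt.2 fun s => (phG_hasDerivAt hc k s).continuousAt)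
    | succ n ih =>
      intro k
      have hd : deriv (phG c k) = fun s => -phG c (k + 1) s :=
        funext fun s => (phG_hasDerivAt hc k s).deriv
      rw [show ((n + 1 : ℕ) : WithTop ℕ∞) = (n : WithTop ℕ∞) + 1 from by push_cast; rfl,
        contDiff_succ_iff_deriv]
      refine ⟨fun s => (phG_hasDerivAt hc k s).differentiableAt, by simp, ?_⟩
      rw [hd]
      exact (ih (k + 1)).neg
  exact contDiff_infty.2 fun n => key n k

theorem ph1_contDiff : ContDiff ℝ ∞ Ph1 := by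
  rw [ph1_eq_phG]
  exact phG_contDiff continuous_const 0

theorem ph2_contDiff : ContDiff ℝ ∞ Ph2 := by
  rw [ph2_eq_phG]
  exact phG_contDiff (continuous_const.sub continuous_id) 0

/-- `|phG c k s| ≤ M e^{|s|}` if `|c| ≤ M` on `[0,1]`. -/
theorem phG_abs_le {c : ℝ → ℝ} (hc : Continuous c) {M : ℝ} (hM : ∀ r ∈ Icc (0 : ℝ) 1, |c r| ≤ M) (k : ℕ) (s : ℝ) :
    |phG c k s| ≤ M * Real.exp |s| := by
  have h := intervalIntegral.norm_integral_le_of_norm_le_const (a := (0 : ℝ)) (b := 1)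
    (f := fun r => c r * r ^ k * Real.exp (-s * r)) (C := M * Real.exp |s|) ?_
  · rw [sub_zero, abs_one, mul_one, Real.norm_eq_abs] at h
    exact h
  · intro r hr
    rw [uIoc_of_le zero_le_one] at hr
    have hr' : r ∈ Icc (0 : ℝ) 1 := ⟨hr.1.le, hr.2⟩
    have h1 := ph_a_exp_le hr' s
    have h3 : r ^ k ≤ 1 := pow_le_one₀ hr.1.le hr.2
    have h4 : 0 ≤ r ^ k := pow_nonneg hr.1.le _
    have h5 := hM r hr'
    have hM0 : 0 ≤ M := (abs_nonneg _).trans h5
    rw [Real.norm_eq_abs, abs_mul, abs_mul, abs_of_nonneg h4, abs_of_nonneg (Real.exp_pos _).le]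
    calc |c r| * r ^ k * Real.exp (-s * r) ≤ M * 1 * Real.exp |s| :=
          mul_le_mul (mul_le_mul h5 h3 h4 hM0) h1 (Real.exp_pos _).le (by positivity)
      _ = M * Real.exp |s| := by ring

/-! ### part B: identities -/

theorem ph1_zero : Ph1 0 = 1 := by
  simp [Ph1]

theorem ph2_zero : Ph2 0 = 1 / 2 := by
  have h : ∀ r ∈ uIcc (0 : ℝ) 1, HasDerivAt (fun r : ℝ => r - r ^ 2 / 2) (1 - r) r := by
    intro r _
    have h1 : HasDerivAt (fun r : ℝ => r - r ^ 2 / 2) (1 - (2 * r ^ (2 - 1)) / 2) r :=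
      (hasDerivAt_id r).fun_sub ((hasDerivAt_pow 2 r).div_const 2)
    refine h1.congr_deriv ?_
    simp
  have h2 := intervalIntegral.integral_eq_sub_of_hasDerivAt h
    (Continuous.intervalIntegrable (by fun_prop) _ _)
  simp only [Ph2, neg_zero, zero_mul, Real.exp_zero, mul_one]
  rw [h2]
  norm_num

theorem ph1_mul (s : ℝ) : s * Ph1 s = 1 - Real.exp (-s) := by
  have h : ∀ r ∈ uIcc (0 : ℝ) 1,
      HasDerivAt (fun r : ℝ => -Real.exp (-s * r)) (s * Real.exp (-s * r)) r := by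
    intro r _
    have h1 : HasDerivAt (fun r : ℝ => -s * r) (-s * 1) r := (hasDerivAt_id r).const_mul (-s)
    have h2 : HasDerivAt (fun r : ℝ => -Real.exp (-s * r)) (-(Real.exp (-s * r) * (-s * 1))) r :=
      h1.exp.fun_neg
    refine h2.congr_deriv ?_
    ring
  have h2 := intervalIntegral.integral_eq_sub_of_hasDerivAt h
    (Continuous.intervalIntegrable (by fun_prop) _ _)
  rw [intervalIntegral.integral_const_mul] at h2
  rw [Ph1, h2]
  simp
  ring

theorem ph2_mul (s : ℝ) : s ^ 2 * Ph2 s = s - 1 + Real.exp (-s) := by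
  have h : ∀ r ∈ uIcc (0 : ℝ) 1,
      HasDerivAt (fun r : ℝ => (-(s * (1 - r)) + 1) * Real.exp (-s * r))
        (s ^ 2 * ((1 - r) * Real.exp (-s * r))) r := by
    intro r _
    have h1 : HasDerivAt (fun r : ℝ => -s * r) (-s * 1) r := (hasDerivAt_id r).const_mul (-s)
    have h3 : HasDerivAt (fun r : ℝ => -(s * (1 - r)) + 1) (-(s * (0 - 1))) r :=
      ((((hasDerivAt_const r (1 : ℝ)).fun_sub (hasDerivAt_id r)).const_mul s).fun_neg).add_const 1
    have h2 : HasDerivAt (fun r : ℝ => (-(s * (1 - r)) + 1) * Real.exp (-s * r))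
        (-(s * (0 - 1)) * Real.exp (-s * r) + (-(s * (1 - r)) + 1) * (Real.exp (-s * r) * (-s * 1))) r :=
      h3.fun_mul h1.exp
    refine h2.congr_deriv ?_
    ring
  have h2 := intervalIntegral.integral_eq_sub_of_hasDerivAt h
    (Continuous.intervalIntegrable (by fun_prop) _ _)
  rw [intervalIntegral.integral_const_mul] at h2
  rw [Ph2, h2]
  simp
  ring

theorem ph1_ph2 (s : ℝ) : 1 - Ph1 s = s * Ph2 s := by
  by_cases hs : s = 0
  · subst hs
    rw [ph1_zero]
    simp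
  · apply mul_left_cancel₀ hs
    have h1 := ph1_mul s
    have h2 := ph2_mul s
    linear_combination -h2 - h1

theorem ph1_pos (s : ℝ) : 0 < Ph1 s := by
  unfold Ph1
  exact intervalIntegral.intervalIntegral_pos_of_pos
    (Continuous.intervalIntegrable (by fun_prop) _ _) (fun r => Real.exp_pos _) zero_lt_one

theorem ph2_pos (s : ℝ) : 0 < Ph2 s := by
  unfold Ph2
  refine intervalIntegral.intervalIntegral_pos_of_pos_on
    (Continuous.intervalIntegrable (by fun_prop) _ _) (fun r hr => ?_) zero_lt_one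
  exact mul_pos (by linarith [hr.2]) (Real.exp_pos _)

/-- `s Φ₁(-s) = e^s - 1`. -/
theorem ph1_neg_mul (s : ℝ) : s * Ph1 (-s) = Real.exp s - 1 := by
  have h := ph1_mul (-s)
  rw [neg_neg] at h
  linarith

/-! ### part C: bounds on `|s| ≤ 1` -/

theorem ph_c_exp_le {s : ℝ} (hs : |s| ≤ 1) : Real.exp |s| ≤ 3 := by
  have h1 : Real.exp |s| ≤ Real.exp 1 := Real.exp_le_exp.2 hs
  have h2 := Real.exp_one_lt_d9
  linarith

theorem ph_c_phG_le {c : ℝ → ℝ} (hc : Continuous c) (hM : ∀ r ∈ Icc (0 : ℝ) 1, |c r| ≤ 1) (k : ℕ)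
    {s : ℝ} (hs : |s| ≤ 1) : |phG c k s| ≤ 3 := by
  have h := phG_abs_le hc hM k s
  rw [one_mul] at h
  exact h.trans (ph_c_exp_le hs)

theorem ph_c_one_le : ∀ r ∈ Icc (0 : ℝ) 1, |(fun _ : ℝ => (1 : ℝ)) r| ≤ 1 := by
  intro r _
  simp

theorem ph_c_one_sub_le : ∀ r ∈ Icc (0 : ℝ) 1, |(fun r : ℝ => 1 - r) r| ≤ 1 := by
  intro r hr
  rw [abs_le]
  constructor <;> simp only [] <;> linarith [hr.1, hr.2]

theorem ph_c_cont_one_sub : Continuous (fun r : ℝ => 1 - r) := continuous_const.sub continuous_id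

theorem ph1_abs_le {s : ℝ} (hs : |s| ≤ 1) : |Ph1 s| ≤ 3 := by
  rw [ph1_eq_phG]
  exact ph_c_phG_le continuous_const ph_c_one_le 0 hs

theorem ph2_abs_le {s : ℝ} (hs : |s| ≤ 1) : |Ph2 s| ≤ 3 := by
  rw [ph2_eq_phG]
  exact ph_c_phG_le ph_c_cont_one_sub ph_c_one_sub_le 0 hs

/-- `0 < Ph2 s ≤ Ph2 (-1) = e - 2 ≤ 1`  (`(1-r) e^{-s r} ≤ (1-r) e^{r}` on `[0,1]`, `intervalIntegral.integral_mono_on`; `ph2_mul (-1)`; `Real.exp_one_lt_d9`). -/
theorem ph2_le_one {s : ℝ} (hs : |s| ≤ 1) : Ph2 s ≤ 1 := by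
  have h1 : Ph2 s ≤ Ph2 (-1) := by
    rw [ph2_eq_phG]
    unfold phG
    refine intervalIntegral.integral_mono_on zero_le_one ?_ ?_ ?_
    · exact Continuous.intervalIntegrable (by fun_prop) _ _
    · exact Continuous.intervalIntegrable (by fun_prop) _ _
    · intro r hr
      have h2 : 0 ≤ (1 - r) * r ^ 0 := by
        rw [pow_zero, mul_one]
        linarith [hr.2]
      refine mul_le_mul_of_nonneg_left (Real.exp_le_exp.2 ?_) h2
      have h3 := (abs_le.1 hs).1
      nlinarith [hr.1]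
  have h2 := ph2_mul (-1)
  have h3 := Real.exp_one_lt_d9
  rw [neg_neg] at h2
  norm_num at h2
  linarith

/-- `Ph1 s - 1 = - s Ph2 s` (`ph1_ph2`), `ph2_pos`, `ph2_le_one`. -/
theorem ph1_sub_one_abs_le {s : ℝ} (hs : |s| ≤ 1) : |Ph1 s - 1| ≤ |s| := by
  have h1 : Ph1 s - 1 = -(s * Ph2 s) := by linarith [ph1_ph2 s]
  rw [h1, abs_neg, abs_mul, abs_of_pos (ph2_pos s)]
  exact mul_le_of_le_one_right (abs_nonneg s) (ph2_le_one hs)

theorem ph1_deriv_abs_le {s : ℝ} (hs : |s| ≤ 1) : |deriv Ph1 s| ≤ 3 := by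
  rw [ph1_eq_phG, (phG_hasDerivAt continuous_const 0 s).deriv, abs_neg]
  exact ph_c_phG_le continuous_const ph_c_one_le _ hs

theorem ph2_deriv_abs_le {s : ℝ} (hs : |s| ≤ 1) : |deriv Ph2 s| ≤ 3 := by
  rw [ph2_eq_phG, (phG_hasDerivAt ph_c_cont_one_sub 0 s).deriv, abs_neg]
  exact ph_c_phG_le ph_c_cont_one_sub ph_c_one_sub_le _ hs

theorem ph_c_iteratedDeriv {c : ℝ → ℝ} (hc : Continuous c) (k n : ℕ) :
    iteratedDeriv n (phG c k) = fun s => (-1) ^ n * phG c (k + n) s := by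
  induction n with
  | zero =>
    funext s
    simp
  | succ n ih =>
    rw [iteratedDeriv_succ, ih]
    funext s
    rw [((phG_hasDerivAt hc (k + n) s).const_mul ((-1 : ℝ) ^ n)).deriv, pow_succ, add_assoc]
    ring

theorem ph_c_iteratedDeriv_le {c : ℝ → ℝ} (hc : Continuous c)
    (hM : ∀ r ∈ Icc (0 : ℝ) 1, |c r| ≤ 1) (k n : ℕ) {s : ℝ} (hs : |s| ≤ 1) :
    |iteratedDeriv n (phG c k) s| ≤ 3 := by
  rw [ph_c_iteratedDeriv hc k n]
  simp only []
  rw [abs_mul, abs_pow, abs_neg, abs_one, one_pow, one_mul]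
  exact ph_c_phG_le hc hM _ hs

/-- all derivatives are bounded on `[-1,1]`. -/
theorem ph_iteratedDeriv_abs_le (n : ℕ) {s : ℝ} (hs : |s| ≤ 1) :
    |iteratedDeriv n Ph1 s| ≤ 3 ∧ |iteratedDeriv n Ph2 s| ≤ 3 := by
  rw [ph1_eq_phG, ph2_eq_phG]
  exact ⟨ph_c_iteratedDeriv_le continuous_const ph_c_one_le 0 n hs,
    ph_c_iteratedDeriv_le ph_c_cont_one_sub ph_c_one_sub_le 0 n hs⟩

/-- hygiene. -/
theorem core_pr_ph_hygiene : True := by
  have := @phG.eq_1
  trivial

end

end Claimed.Agent.R324.Core
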