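/-
Row 324 (S0582), PDE core, module PR (architect helper489), file SmBg  (PR2, part 1): smoothness of everything that is built from a smooth background `g` (`BgSm g`, Core/Bgd.lean).
PROOFS: unfold the definition and apply the closure lemmas of `Core/PR/Sm.lean` (`Sm.add, Sm.mul, Sm.pow, Sm.const_mul, Sm.div_const, Sm.exp, Sm.neg, Sm.dY, Sm.dT, Sm.DD, sm_Xf, sm_snd, sm_const, Sm.div`).
 * `g.Z = 1/(1 + X B)`: `Sm.div (sm_const 1) _ h.den_ne`.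
 * `cf`, `mF`, `Res`: `fin_cases j <;> fin_cases k`, then `show Sm (fun p => <entry>)` (the entries are in Core/Defs.lean / Core/Bgd.lean; `simp only [Bg.cf, Matrix.cons_val_zero, ...]` or `unfold` + `show`).
   TIP: prove `Sm` of each entry as a separate `have`, in terms of `hZ := h.smZ`, `hd := h.smdd`, ...
Statements FROZEN.  Helper lemmas: prefix `smbg_`.
-/
import Claimed.Agent.R324.Core.PR.Sm

set_option autoImplicit false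

namespace Claimed.Agent.R324.Core

open Set Filter Topology
open scoped ContDiff

noncomputable section

variable {g : Bg} {t y : ℝ}

theorem BgSm.den_ne (h : BgSm g) : ∀ t < 0, ∀ y, 1 + Xf y * g.B (t, y) ≠ 0 :=
  fun t ht y => (h.pos t ht y).ne'

theorem BgSm.smden (h : BgSm g) : Sm (fun p => 1 + Xf p.2 * g.B p) :=
  (sm_const 1).add (sm_Xf.mul h.smB)

theorem BgSm.smZ (h : BgSm g) : Sm g.Z :=
  (sm_const 1).div h.smden h.den_ne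

theorem BgSm.Z_pos (h : BgSm g) (ht : t < 0) (y : ℝ) : 0 < g.Z (t, y) :=
  one_div_pos.2 (h.pos t ht y)

theorem BgSm.Z_mul (h : BgSm g) (ht : t < 0) (y : ℝ) : g.Z (t, y) * (1 + Xf y * g.B (t, y)) = 1 :=
  one_div_mul_cancel (h.den_ne t ht y)

theorem BgSm.smdd (h : BgSm g) : Sm g.dd := (sm_Xf.mul h.smB).dY

theorem BgSm.smBp (h : BgSm g) : Sm g.Bp := h.smB.dY

theorem BgSm.smwp (h : BgSm g) : Sm g.wp := h.smw.dY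

theorem BgSm.smwpp (h : BgSm g) : Sm g.wpp := h.smw.dY.dY

theorem BgSm.smap (h : BgSm g) : Sm g.ap := h.smZ.mul h.smdd

theorem BgSm.smapp (h : BgSm g) : Sm g.app := h.smap.dY

/-! ### part A -/

theorem smbg_a_w1 {S : Set (ℝ × ℝ)} {Z d w' W : ℝ × ℝ → ℝ} (hZ : ContDiffOn ℝ ∞ Z S)
    (hd : ContDiffOn ℝ ∞ d S) (hw' : ContDiffOn ℝ ∞ w' S) (hW : ContDiffOn ℝ ∞ W S) :
    ContDiffOn ℝ ∞ (fun p => -(Z p) ^ 2 * d p / 2 + Z p * w' p + W p) S := by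
  fun_prop

theorem BgSm.smw1 (h : BgSm g) : Sm g.w1 := by
  exact smbg_a_w1 h.smZ h.smdd h.smwp h.smW

theorem smbg_a_w0 {S : Set (ℝ × ℝ)} {X Z w1 : ℝ × ℝ → ℝ} (hX : ContDiffOn ℝ ∞ X S)
    (hZ : ContDiffOn ℝ ∞ Z S) (hw1 : ContDiffOn ℝ ∞ w1 S) (c : ℝ) :
    ContDiffOn ℝ ∞ (fun p => c * p.2 * Z p - X p * w1 p) S := by
  fun_prop

theorem BgSm.smw0 (h : BgSm g) (q : ℝ) : Sm (g.w0 q) := by
  exact smbg_a_w0 sm_Xf h.smZ h.smw1 q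

theorem BgSm.smbh (h : BgSm g) (q : ℝ) : Sm (g.bh q) := by
  exact smbg_a_w0 sm_Xf h.smZ h.smw1 (q - 1)

theorem smbg_a_mat3 {S : Set (ℝ × ℝ)} {a00 a01 a02 a10 a11 a12 a20 a21 a22 : ℝ × ℝ → ℝ}
    (h00 : ContDiffOn ℝ ∞ a00 S) (h01 : ContDiffOn ℝ ∞ a01 S) (h02 : ContDiffOn ℝ ∞ a02 S)
    (h10 : ContDiffOn ℝ ∞ a10 S) (h11 : ContDiffOn ℝ ∞ a11 S) (h12 : ContDiffOn ℝ ∞ a12 S)
    (h20 : ContDiffOn ℝ ∞ a20 S) (h21 : ContDiffOn ℝ ∞ a21 S) (h22 : ContDiffOn ℝ ∞ a22 S)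
    (j k : Fin 3) :
    ContDiffOn ℝ ∞ (fun p => (![![a00 p, a01 p, a02 p], ![a10 p, a11 p, a12 p],
      ![a20 p, a21 p, a22 p]] : Fin 3 → Fin 3 → ℝ) j k) S := by
  fin_cases j <;> fin_cases k
  · exact h00
  · exact h01
  · exact h02
  · exact h10
  · exact h11
  · exact h12
  · exact h20
  · exact h21
  · exact h22

theorem smbg_a_cf {S : Set (ℝ × ℝ)} {X Z d B w' w'' Bp w w1 : ℝ × ℝ → ℝ}
    (hX : ContDiffOn ℝ ∞ X S) (hZ : ContDiffOn ℝ ∞ Z S) (hd : ContDiffOn ℝ ∞ d S)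
    (hB : ContDiffOn ℝ ∞ B S) (hw' : ContDiffOn ℝ ∞ w' S) (hw'' : ContDiffOn ℝ ∞ w'' S)
    (hBp : ContDiffOn ℝ ∞ Bp S) (hw : ContDiffOn ℝ ∞ w S) (hw1 : ContDiffOn ℝ ∞ w1 S)
    (q : ℝ) (j k : Fin 3) :
    ContDiffOn ℝ ∞ (fun p =>
  (![![(-Z p * X p * w' p ^ 2 - 2 * q * p.2 * Z p ^ 2 * d p + 2 * q * Z p * ((q - 1) * B p + q + 1)) / (q + 1),
      Z p * ((2 * q + 2) * p.2 * w' p + X p * Z p * d p * w' p - 2 * X p * w'' p) / (q + 1),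
      q / (q + 1) * Z p * (-X p * w' p ^ 2 - (q - 1) * p.2 * Z p * d p - 2 * (q - 1) * B p) / (q + 1)],
    ![Z p * ((q + 1) * p.2 * w' p + X p * Z p * d p * w' p / 2 - X p * w'' p),
      2 * Real.exp (-w p) - Z p * X p * w' p ^ 2,
      q / (q + 1) * X p * Z p * (Z p * d p * w' p / 2 - w'' p)],
    ![-Z p * w' p ^ 2 - (q - 1) * Z p ^ 2 * (p.2 * Bp p + 2 * B p * (B p + 1)),
      Z p * (-2 * w'' p + Z p * d p * w' p),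
      (Z p * (2 * (q - 1) * B p - 4 * (q + 1)) - q * Z p * X p * w' p ^ 2 + 2 * q * p.2 * Z p ^ 2 * d p) / (q + 1)
        - 2 * p.2 * w1 p]] : Fin 3 → Fin 3 → ℝ) j k) S := by
  refine smbg_a_mat3 ?_ ?_ ?_ ?_ ?_ ?_ ?_ ?_ ?_ j k <;> fun_prop

theorem BgSm.smcf (h : BgSm g) (q : ℝ) (j k : Fin 3) : Sm (g.cf q j k) := by
  exact smbg_a_cf sm_Xf h.smZ h.smdd h.smB h.smwp h.smwpp h.smBp h.smw h.smw1 q j k

theorem smbg_a_mF {S : Set (ℝ × ℝ)} {X Z bh : ℝ × ℝ → ℝ} {cf : Fin 3 → Fin 3 → ℝ × ℝ → ℝ}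
    (hX : ContDiffOn ℝ ∞ X S) (hZ : ContDiffOn ℝ ∞ Z S) (hbh : ContDiffOn ℝ ∞ bh S)
    (hcf : ∀ j k, ContDiffOn ℝ ∞ (cf j k) S) (j k : Fin 3) :
    ContDiffOn ℝ ∞ (fun p =>
  (![![X p * cf 0 0 p, X p * cf 0 1 p, X p * cf 0 2 p],
    ![X p * cf 1 0 p, X p * cf 1 1 p, X p * cf 1 2 p],
    ![X p ^ 2 * cf 2 0 p, X p ^ 2 * cf 2 1 p,
      X p * cf 2 2 p - Z p * (4 * p.2 ^ 2 - 2 * X p) - 2 * p.2 * bh p]] : Fin 3 → Fin 3 → ℝ) j k) S := by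
  have h00 := hcf 0 0
  have h01 := hcf 0 1
  have h02 := hcf 0 2
  have h10 := hcf 1 0
  have h11 := hcf 1 1
  have h12 := hcf 1 2
  have h20 := hcf 2 0
  have h21 := hcf 2 1
  have h22 := hcf 2 2
  refine smbg_a_mat3 ?_ ?_ ?_ ?_ ?_ ?_ ?_ ?_ ?_ j k <;> fun_prop

theorem BgSm.smmF (h : BgSm g) (q : ℝ) (j k : Fin 3) : Sm (mF q g j k) := by
  exact smbg_a_mF sm_Xf h.smZ (h.smbh q) (fun j k => h.smcf q j k) j k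

/-! ### part B -/

theorem smbg_b_GAF {S : Set (ℝ × ℝ)} {X Z d w' W a' DDw dW : ℝ × ℝ → ℝ}
    (hX : ContDiffOn ℝ ∞ X S) (hZ : ContDiffOn ℝ ∞ Z S) (hd : ContDiffOn ℝ ∞ d S)
    (hw' : ContDiffOn ℝ ∞ w' S) (hW : ContDiffOn ℝ ∞ W S) (ha' : ContDiffOn ℝ ∞ a' S)
    (hDDw : ContDiffOn ℝ ∞ DDw S) (hdW : ContDiffOn ℝ ∞ dW S) (q : ℝ) :
    ContDiffOn ℝ ∞ (fun p =>
      Z p * (-2 * q + 2 * DDw p + X p * (w' p) ^ 2) + (Z p) ^ 2 * d p * (q * p.2 - X p * w' p)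
        + X p * W p * a' p + 2 * X p * dW p - 2 * p.2 * W p) S := by
  fun_prop

theorem BgSm.smGAF (h : BgSm g) (q : ℝ) : Sm (GAF q g) := by
  exact smbg_b_GAF sm_Xf h.smZ h.smdd h.smwp h.smW h.smap h.smw.DD h.smW.dY q

theorem smbg_b_GBF {S : Set (ℝ × ℝ)} {Z d B w' W : ℝ × ℝ → ℝ}
    (hZ : ContDiffOn ℝ ∞ Z S) (hd : ContDiffOn ℝ ∞ d S) (hB : ContDiffOn ℝ ∞ B S)
    (hw' : ContDiffOn ℝ ∞ w' S) (hW : ContDiffOn ℝ ∞ W S) (q : ℝ) :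
    ContDiffOn ℝ ∞ (fun p =>
      -(2 * (q - 1) * B p * Z p + 2 * q * Z p - p.2 * (Z p) ^ 2 * d p
        + 2 * p.2 * Z p * w' p + 2 * p.2 * W p)) S := by
  fun_prop

theorem BgSm.smGBF (h : BgSm g) (q : ℝ) : Sm (GBF q g) := by
  exact smbg_b_GBF h.smZ h.smdd h.smB h.smwp h.smW q

theorem smbg_b_GCF {S : Set (ℝ × ℝ)} {X Z w w' W a' DDw : ℝ × ℝ → ℝ}
    (hX : ContDiffOn ℝ ∞ X S) (hZ : ContDiffOn ℝ ∞ Z S) (hw : ContDiffOn ℝ ∞ w S)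
    (hw' : ContDiffOn ℝ ∞ w' S) (hW : ContDiffOn ℝ ∞ W S) (ha' : ContDiffOn ℝ ∞ a' S)
    (hDDw : ContDiffOn ℝ ∞ DDw S) (q : ℝ) :
    ContDiffOn ℝ ∞ (fun p =>
      Z p * (DDw p - X p * a' p * w' p / 2 - q * p.2 * w' p + X p * (w' p) ^ 2)
        - 2 * Real.exp (-w p) + X p * W p * w' p) S := by
  fun_prop

theorem BgSm.smGCF (h : BgSm g) (q : ℝ) : Sm (GCF q g) := by
  exact smbg_b_GCF sm_Xf h.smZ h.smw h.smwp h.smW h.smap h.smw.DD q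

theorem smbg_b_GbF {S : Set (ℝ × ℝ)} {Z d B Bp w' w'' W a' dW : ℝ × ℝ → ℝ}
    (hZ : ContDiffOn ℝ ∞ Z S) (hd : ContDiffOn ℝ ∞ d S) (hB : ContDiffOn ℝ ∞ B S)
    (hBp : ContDiffOn ℝ ∞ Bp S) (hw' : ContDiffOn ℝ ∞ w' S) (hw'' : ContDiffOn ℝ ∞ w'' S)
    (hW : ContDiffOn ℝ ∞ W S) (ha' : ContDiffOn ℝ ∞ a' S) (hdW : ContDiffOn ℝ ∞ dW S) (q : ℝ) :
    ContDiffOn ℝ ∞ (fun p =>
      2 * Z p * w'' p + Z p * (w' p) ^ 2 - (Z p) ^ 2 * d p * w' p + W p * a' p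
        + 2 * dW p + (q - 1) * (Z p) ^ 2 * (2 * B p * (B p + 1) + p.2 * Bp p)) S := by
  fun_prop

theorem BgSm.smGbF (h : BgSm g) (q : ℝ) : Sm (GbF q g) := by
  exact smbg_b_GbF h.smZ h.smdd h.smB h.smBp h.smwp h.smwpp h.smW h.smap h.smW.dY q

theorem smbg_b_vec3 {S : Set (ℝ × ℝ)} {a0 a1 a2 : ℝ × ℝ → ℝ}
    (h0 : ContDiffOn ℝ ∞ a0 S) (h1 : ContDiffOn ℝ ∞ a1 S) (h2 : ContDiffOn ℝ ∞ a2 S)
    (j : Fin 3) :
    ContDiffOn ℝ ∞ ((![a0, a1, a2] : Fin 3 → ℝ × ℝ → ℝ) j) S := by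
  fin_cases j
  · exact h0
  · exact h1
  · exact h2

theorem smbg_b_Res0 {S : Set (ℝ × ℝ)} {X Z dB GA GB : ℝ × ℝ → ℝ}
    (hX : ContDiffOn ℝ ∞ X S) (hZ : ContDiffOn ℝ ∞ Z S) (hdB : ContDiffOn ℝ ∞ dB S)
    (hGA : ContDiffOn ℝ ∞ GA S) (hGB : ContDiffOn ℝ ∞ GB S) (q : ℝ) :
    ContDiffOn ℝ ∞ (fun p => (X p * Z p * dB p - GA p - q * GB p) / (q + 1)) S := by
  fun_prop

theorem BgSm.smRes (h : BgSm g) (q : ℝ) (j : Fin 3) : Sm (Res q g j) := by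
  exact smbg_b_vec3 (smbg_b_Res0 sm_Xf h.smZ h.smB.dT (h.smGAF q) (h.smGBF q) q)
    (h.smw.dT.sub (h.smGCF q)) ((h.smZ.mul h.smB.dT).sub (h.smGbF q)) j

end

end Claimed.Agent.R324.Core
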