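/-
Row 324 (S0582), PDE core, module PR (architect helper489), file SmU  (PR2, part 2): smoothness of everything that is built from a smooth background `g` and a smooth triple `U`.
PROOFS: unfold the definition and apply the closure lemmas of `Core/PR/Sm.lean` and the lemmas of `Core/PR/SmBg.lean`; `Ph1 ∘ f`, `Ph2 ∘ f`: `Sm.comp ph1_contDiff _`, `Sm.comp ph2_contDiff _`.
The definitions with `let` (`R1F`, `RbF`): `unfold R1F` then `show Sm (fun p => ...)` or `simp only []`/`dsimp only` to remove the `let`s.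
`Rhs`, `Lop`: `fin_cases j`; the sum in `Lop`: `sm_sum`; `facJ j k p.2` is `Xf p.2` or `1` (`unfold facJ; split_ifs`), note `1 - p.2^2 = Xf p.2` by `rfl`.
Statements FROZEN.  Helper lemmas: prefix `smu_`.
-/
import Claimed.Agent.R324.Core.PR.SmBg
import Claimed.Agent.R324.Core.PR.Ph

set_option autoImplicit false

namespace Claimed.Agent.R324.Core

open Set Filter Topology
open scoped ContDiff

noncomputable section

variable {g : Bg} {U : Tri}

/-! ### part A -/

theorem sm_beF (hU : ∀ j, Sm (U j)) : Sm (beF U) := sm_Xf.mul (hU 2)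

theorem sm_h1F (q : ℝ) (hU : ∀ j, Sm (U j)) : Sm (h1F q U) :=
  (hU 0).add ((sm_Xf.mul (hU 2)).const_mul _)

theorem sm_h2F (q : ℝ) (hU : ∀ j, Sm (U j)) : Sm (h2F q U) :=
  (hU 0).sub ((sm_Xf.mul (hU 2)).const_mul _)

theorem sm_e1F (q : ℝ) (hU : ∀ j, Sm (U j)) : Sm (e1F q U) := (sm_h1F q hU).neg.exp

theorem sm_e2F (q : ℝ) (hU : ∀ j, Sm (U j)) : Sm (e2F q U) := (sm_h2F q hU).neg.exp

theorem sm_e3F (hU : ∀ j, Sm (U j)) : Sm (e3F U) := (hU 1).neg.exp

theorem sm_bPh (q : ℝ) (hU : ∀ j, Sm (U j)) : Sm (bPh q U) :=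
  ((hU 2).mul (sm_e2F q hU)).mul ((sm_beF hU).comp ph1_contDiff)

set_option linter.unusedTactic false in
set_option linter.unreachableTactic false in
theorem sm_ggF (q : ℝ) (hg : BgSm g) (hU : ∀ j, Sm (U j)) : Sm (ggF q g U) := by
  unfold ggF
  repeat' first
    | exact hg.smZ | exact hg.smB | exact hg.smw | exact hg.smW | exact hg.smdd | exact hg.smBp
    | exact hg.smwp | exact hg.smwpp | exact hg.smap | exact hg.smapp | exact hg.smw1
    | exact hg.smw0 q | exact hU _ | exact sm_e1F q hU | exact sm_e2F q hU | exact sm_e3F hU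
    | exact sm_h1F q hU | exact sm_h2F q hU | exact sm_beF hU | exact sm_bPh q hU
    | exact sm_const _ | exact sm_snd | exact sm_Xf
    | apply Sm.dY | apply Sm.DD | apply Sm.exp | apply Sm.pow | apply Sm.div_const
    | apply Sm.add | apply Sm.sub | apply Sm.mul | apply Sm.neg

set_option linter.unusedTactic false in
set_option linter.unreachableTactic false in
theorem sm_GGF (q : ℝ) (hg : BgSm g) (hU : ∀ j, Sm (U j)) : Sm (GGF q g U) := by
  unfold GGF
  repeat' first
    | exact hg.smZ | exact hg.smB | exact hg.smw | exact hg.smW | exact hg.smdd | exact hg.smBp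
    | exact hg.smwp | exact hg.smwpp | exact hg.smap | exact hg.smapp | exact hg.smw1
    | exact hg.smw0 q | exact hU _ | exact sm_e1F q hU | exact sm_e2F q hU | exact sm_e3F hU
    | exact sm_h1F q hU | exact sm_h2F q hU | exact sm_beF hU | exact sm_bPh q hU
    | exact sm_ggF q hg hU
    | exact sm_const _ | exact sm_snd | exact sm_Xf
    | apply Sm.dY | apply Sm.DD | apply Sm.exp | apply Sm.pow | apply Sm.div_const
    | apply Sm.add | apply Sm.sub | apply Sm.mul | apply Sm.neg

theorem smu_a_facJ (j k : Fin 3) : Sm (fun p => facJ j k p.2) := by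
  unfold facJ
  split_ifs
  · exact sm_Xf
  · exact sm_const 1

theorem sm_Lop (q : ℝ) (hg : BgSm g) (hU : ∀ j, Sm (U j)) (j : Fin 3) : Sm (Lop q g U j) := by
  unfold Lop
  refine Sm.add (Sm.add ((hg.smZ.mul sm_Xf).mul (hU j).dY.dY) (Sm.mul ?_ (hU j).dY)) ?_
  · exact Sm.add (((sm_const (-(dimJ q j))).mul sm_snd).mul hg.smZ) (sm_Xf.mul hg.smw1)
  · exact sm_sum Finset.univ (fun k _ => ((smu_a_facJ j k).mul (hg.smcf q j k)).mul (hU k))

theorem sm_mA (q : ℝ) (hU : ∀ j, Sm (U j)) : Sm (mA q U) := (sm_h2F q hU).exp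

theorem sm_mB (q : ℝ) (hg : BgSm g) (hU : ∀ j, Sm (U j)) : Sm (mB q g U) :=
  (sm_h2F q hU).exp.mul (((hU 2).mul ((sm_beF hU).neg.comp ph1_contDiff)).add ((sm_beF hU).exp.mul hg.smB))

theorem sm_mC (hg : BgSm g) (hU : ∀ j, Sm (U j)) : Sm (mC g U) := (hg.smw.add (hU 1)).exp

set_option linter.unusedTactic false in
set_option linter.unreachableTactic false in
theorem sm_mW (q : ℝ) (hg : BgSm g) (hU : ∀ j, Sm (U j)) : Sm (mW q g U) := by
  unfold mW
  repeat' first
    | exact hg.smZ | exact hg.smB | exact hg.smw | exact hg.smW | exact hg.smdd | exact hg.smBp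
    | exact hg.smwp | exact hg.smwpp | exact hg.smap | exact hg.smapp | exact hg.smw1
    | exact hg.smw0 q | exact hU _ | exact sm_e1F q hU | exact sm_e2F q hU | exact sm_e3F hU
    | exact sm_h1F q hU | exact sm_h2F q hU | exact sm_beF hU | exact sm_bPh q hU
    | exact sm_const _ | exact sm_snd | exact sm_Xf
    | apply Sm.dY | apply Sm.DD | apply Sm.exp | apply Sm.pow | apply Sm.div_const
    | apply Sm.add | apply Sm.sub | apply Sm.mul | apply Sm.neg

/-! ### part B -/

set_option linter.unusedTactic false in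
set_option linter.unreachableTactic false in
theorem sm_R3F (q : ℝ) (hg : BgSm g) (hU : ∀ j, Sm (U j)) : Sm (R3F q g U) := by
  unfold R3F
  repeat' first
    | exact hg.smZ | exact hg.smB | exact hg.smw | exact hg.smW | exact hg.smdd | exact hg.smBp
    | exact hg.smwp | exact hg.smwpp | exact hg.smap | exact hg.smapp | exact hg.smw1
    | exact hg.smw0 q | exact hU _ | exact sm_e1F q hU | exact sm_e2F q hU | exact sm_e3F hU
    | exact sm_h1F q hU | exact sm_h2F q hU | exact sm_beF hU | exact sm_bPh q hU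
    | exact sm_ggF q hg hU | exact sm_GGF q hg hU
    | exact (sm_beF hU).comp ph1_contDiff | exact (sm_beF hU).comp ph2_contDiff
    | exact sm_const _ | exact sm_snd | exact sm_Xf
    | apply Sm.dY | apply Sm.DD | apply Sm.exp | apply Sm.pow | apply Sm.div_const
    | apply Sm.add | apply Sm.sub | apply Sm.mul | apply Sm.neg

set_option linter.unusedTactic false in
set_option linter.unreachableTactic false in
theorem sm_R2F (q : ℝ) (hg : BgSm g) (hU : ∀ j, Sm (U j)) : Sm (R2F q g U) := by
  unfold R2F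
  repeat' first
    | exact hg.smZ | exact hg.smB | exact hg.smw | exact hg.smW | exact hg.smdd | exact hg.smBp
    | exact hg.smwp | exact hg.smwpp | exact hg.smap | exact hg.smapp | exact hg.smw1
    | exact hg.smw0 q | exact hU _ | exact sm_e1F q hU | exact sm_e2F q hU | exact sm_e3F hU
    | exact sm_h1F q hU | exact sm_h2F q hU | exact sm_beF hU | exact sm_bPh q hU
    | exact sm_ggF q hg hU | exact sm_GGF q hg hU
    | exact (sm_beF hU).comp ph1_contDiff | exact (sm_beF hU).comp ph2_contDiff
    | exact sm_const _ | exact sm_snd | exact sm_Xf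
    | apply Sm.dY | apply Sm.DD | apply Sm.exp | apply Sm.pow | apply Sm.div_const
    | apply Sm.add | apply Sm.sub | apply Sm.mul | apply Sm.neg

set_option linter.unusedTactic false in
set_option linter.unreachableTactic false in
theorem sm_R1F (q : ℝ) (hg : BgSm g) (hU : ∀ j, Sm (U j)) : Sm (R1F q g U) := by
  unfold R1F
  dsimp only
  repeat' first
    | exact hg.smZ | exact hg.smB | exact hg.smw | exact hg.smW | exact hg.smdd | exact hg.smBp
    | exact hg.smwp | exact hg.smwpp | exact hg.smap | exact hg.smapp | exact hg.smw1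
    | exact hg.smw0 q | exact hU _ | exact sm_e1F q hU | exact sm_e2F q hU | exact sm_e3F hU
    | exact sm_h1F q hU | exact sm_h2F q hU | exact sm_beF hU | exact sm_bPh q hU
    | exact sm_ggF q hg hU | exact sm_GGF q hg hU
    | exact (sm_beF hU).comp ph1_contDiff | exact (sm_beF hU).comp ph2_contDiff
    | exact sm_const _ | exact sm_snd | exact sm_Xf
    | apply Sm.dY | apply Sm.DD | apply Sm.exp | apply Sm.pow | apply Sm.div_const
    | apply Sm.add | apply Sm.sub | apply Sm.mul | apply Sm.neg

set_option linter.unusedTactic false in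
set_option linter.unreachableTactic false in
theorem sm_RbF (q : ℝ) (hg : BgSm g) (hU : ∀ j, Sm (U j)) : Sm (RbF q g U) := by
  unfold RbF
  dsimp only
  repeat' first
    | exact hg.smZ | exact hg.smB | exact hg.smw | exact hg.smW | exact hg.smdd | exact hg.smBp
    | exact hg.smwp | exact hg.smwpp | exact hg.smap | exact hg.smapp | exact hg.smw1
    | exact hg.smw0 q | exact hU _ | exact sm_e1F q hU | exact sm_e2F q hU | exact sm_e3F hU
    | exact sm_h1F q hU | exact sm_h2F q hU | exact sm_beF hU | exact sm_bPh q hU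
    | exact sm_ggF q hg hU | exact sm_GGF q hg hU
    | exact (sm_beF hU).comp ph1_contDiff | exact (sm_beF hU).comp ph2_contDiff
    | exact sm_const _ | exact sm_snd | exact sm_Xf
    | apply Sm.dY | apply Sm.DD | apply Sm.exp | apply Sm.pow | apply Sm.div_const
    | apply Sm.add | apply Sm.sub | apply Sm.mul | apply Sm.neg

theorem sm_Rhs (q : ℝ) (hg : BgSm g) (hU : ∀ j, Sm (U j)) (j : Fin 3) : Sm (Rhs q g U j) := by
  fin_cases j
  · exact ((sm_R1F q hg hU).add ((sm_R2F q hg hU).const_mul q)).div_const (q + 1)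
  · exact sm_R3F q hg hU
  · exact sm_RbF q hg hU

end

end Claimed.Agent.R324.Core
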