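/-
Row 324 (S0582), PDE core, module PR (architect helper489), file SmR  (PR2, part 3): the cut-offs `psi1`, `chiC`; the reference background `bgR q g` is a smooth background; `Lt`, `NN` are smooth.
Notation: `Λ = -t > 0`.   `chiC (t,y) = psi1 y * sT (X/(Λ √Λ) - 1) * sT (2 - X/√Λ)`, `sT = Real.smoothTransition` (`= 0` on `(-∞,0]`, `= 1` on `[1,∞)`, values in `[0,1]`, `ContDiff ℝ ∞`:
`Real.smoothTransition.zero_of_nonpos, .one_of_one_le, .nonneg, .le_one, .contDiff`).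
PROOFS.
 * `sm_chiC`: `√(-t)` is `Sm` (`Sm.sqrt sm_fst.neg`, `-t ≠ 0`), quotients by `Sm.div` (denominators `≠ 0` for `t < 0`), `Sm.comp Real.smoothTransition.contDiff`.
 * `chiC_eq_zero_of_X_le`: `X/(Λ√Λ) - 1 ≤ 0` (`div_le_one`).  Similarly the others.
 * `sm_chiC_mul`: let `p = (t,y)`, `t < 0`.  If `0 < X(y)`: product of two functions smooth at `p`.  If `X(y) ≤ 0`: the set `{p' | p'.1 < 0 ∧ Xf p'.2 < (-p'.1) * √(-p'.1)}` is open
   (continuity) and contains `p` (`0 < Λ√Λ`); on it `chiC = 0`, so the product is `=ᶠ 0` (`sm_of_eventuallyEq`).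
 * `bgR_sm`: `(bgCone q).B = (y²/z₀ - 1)/X` and `(bgCone q).w = log (X/(q-1))` are `ContDiffAt` where `X > 0` (`q > 1`).
   Positivity: `1 + X B̃ = (1-χ)(1 + X B) + χ (1 + X B_c)`, and `1 + X B_c = y²/z₀` if `X ≠ 0`;  if `χ = chiC (t,y) ≠ 0` then `X > 0` (`chiC_eq_zero_of_X_le`) and `y > 3/4` (`chiC_eq_zero_of_y`), so `y²/z₀ > 0`;
   `0 ≤ χ ≤ 1`;  a convex combination of two positive numbers is positive (cases `χ = 0`, `χ > 0`).
Statements FROZEN.  Helper lemmas: prefix `smr_`.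
-/
import Claimed.Agent.R324.Core.PR.SmU

set_option autoImplicit false

namespace Claimed.Agent.R324.Core

open Set Filter Topology
open scoped ContDiff

noncomputable section

variable {g : Bg} {U : Tri} {t y : ℝ}

/-! ### part A: the cut-offs -/

theorem psi1_contDiff : ContDiff ℝ ∞ psi1 := by
  unfold psi1
  exact Real.smoothTransition.contDiff.comp ((contDiff_const.mul contDiff_id).sub contDiff_const)

theorem psi1_nonneg (y : ℝ) : 0 ≤ psi1 y := Real.smoothTransition.nonneg _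

theorem psi1_le_one (y : ℝ) : psi1 y ≤ 1 := Real.smoothTransition.le_one _

theorem psi1_eq_zero (hy : y ≤ 3 / 4) : psi1 y = 0 :=
  Real.smoothTransition.zero_of_nonpos (by linarith)

theorem psi1_eq_one (hy : 19 / 20 ≤ y) : psi1 y = 1 :=
  Real.smoothTransition.one_of_one_le (by linarith)

theorem sm_chiC : Sm chiC := by
  have hneg : Sm (fun p : ℝ × ℝ => -p.1) := sm_fst.neg
  have hsq : Sm (fun p : ℝ × ℝ => Real.sqrt (-p.1)) :=
    Sm.sqrt hneg fun t ht _ => by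
      show -t ≠ 0
      exact (neg_pos.2 ht).ne'
  have hsq0 : ∀ t < 0, ∀ y : ℝ, Real.sqrt (-((t, y) : ℝ × ℝ).1) ≠ 0 := fun t ht _ =>
    (Real.sqrt_pos.2 (neg_pos.2 ht)).ne'
  have h1 : Sm (fun p : ℝ × ℝ => Xf p.2 / ((-p.1) * Real.sqrt (-p.1)) - 1) :=
    (Sm.div sm_Xf (hneg.mul hsq) fun t ht y =>
      mul_ne_zero (neg_pos.2 ht).ne' (hsq0 t ht y)).sub (sm_const 1)
  have h2 : Sm (fun p : ℝ × ℝ => 2 - Xf p.2 / Real.sqrt (-p.1)) :=
    (sm_const 2).sub (Sm.div sm_Xf hsq hsq0)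
  exact ((sm_of_y psi1_contDiff).mul (Sm.comp Real.smoothTransition.contDiff h1)).mul
    (Sm.comp Real.smoothTransition.contDiff h2)

theorem chiC_nonneg (p : ℝ × ℝ) : 0 ≤ chiC p :=
  mul_nonneg (mul_nonneg (psi1_nonneg _) (Real.smoothTransition.nonneg _))
    (Real.smoothTransition.nonneg _)

theorem chiC_le_one (p : ℝ × ℝ) : chiC p ≤ 1 := by
  unfold chiC
  have h1 := psi1_le_one p.2
  have h1' := psi1_nonneg p.2
  have h2 := Real.smoothTransition.le_one (Xf p.2 / ((-p.1) * Real.sqrt (-p.1)) - 1)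
  have h2' := Real.smoothTransition.nonneg (Xf p.2 / ((-p.1) * Real.sqrt (-p.1)) - 1)
  have h3 := Real.smoothTransition.le_one (2 - Xf p.2 / Real.sqrt (-p.1))
  have h3' := Real.smoothTransition.nonneg (2 - Xf p.2 / Real.sqrt (-p.1))
  exact mul_le_one₀ (mul_le_one₀ h1 h2' h2) h3' h3

theorem chiC_eq_zero_of_y (t : ℝ) (hy : y ≤ 3 / 4) : chiC (t, y) = 0 := by
  unfold chiC
  rw [psi1_eq_zero hy, zero_mul, zero_mul]

theorem chiC_eq_zero_of_X_le (ht : t < 0) (h : Xf y ≤ (-t) * Real.sqrt (-t)) : chiC (t, y) = 0 := by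
  have hpos : 0 < (-t) * Real.sqrt (-t) := mul_pos (neg_pos.2 ht) (Real.sqrt_pos.2 (neg_pos.2 ht))
  have h1 : Xf y / ((-t) * Real.sqrt (-t)) - 1 ≤ 0 := by
    have := (div_le_one hpos).2 h
    linarith
  unfold chiC
  show psi1 y * Real.smoothTransition (Xf y / ((-t) * Real.sqrt (-t)) - 1)
    * Real.smoothTransition (2 - Xf y / Real.sqrt (-t)) = 0
  rw [Real.smoothTransition.zero_of_nonpos h1, mul_zero, zero_mul]

theorem chiC_eq_zero_of_le_X (ht : t < 0) (h : 2 * Real.sqrt (-t) ≤ Xf y) : chiC (t, y) = 0 := by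
  have hpos : 0 < Real.sqrt (-t) := Real.sqrt_pos.2 (neg_pos.2 ht)
  have h1 : 2 - Xf y / Real.sqrt (-t) ≤ 0 := by
    have := (le_div_iff₀ hpos).2 h
    linarith
  unfold chiC
  show psi1 y * Real.smoothTransition (Xf y / ((-t) * Real.sqrt (-t)) - 1)
    * Real.smoothTransition (2 - Xf y / Real.sqrt (-t)) = 0
  rw [Real.smoothTransition.zero_of_nonpos h1, mul_zero]

theorem chiC_eq_one (ht : t < 0) (hy : 19 / 20 ≤ y) (h1 : 2 * ((-t) * Real.sqrt (-t)) ≤ Xf y)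
    (h2 : Xf y ≤ Real.sqrt (-t)) : chiC (t, y) = 1 := by
  have hpos : 0 < Real.sqrt (-t) := Real.sqrt_pos.2 (neg_pos.2 ht)
  have hpos2 : 0 < (-t) * Real.sqrt (-t) := mul_pos (neg_pos.2 ht) hpos
  have e1 : 1 ≤ Xf y / ((-t) * Real.sqrt (-t)) - 1 := by
    have := (le_div_iff₀ hpos2).2 h1
    linarith
  have e2 : 1 ≤ 2 - Xf y / Real.sqrt (-t) := by
    have := (div_le_one hpos).2 h2
    linarith
  unfold chiC
  show psi1 y * Real.smoothTransition (Xf y / ((-t) * Real.sqrt (-t)) - 1)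
    * Real.smoothTransition (2 - Xf y / Real.sqrt (-t)) = 1
  rw [psi1_eq_one hy, Real.smoothTransition.one_of_one_le e1,
    Real.smoothTransition.one_of_one_le e2]
  norm_num

/-! ### part B: the reference background -/

/-- `chiC * f` is smooth if `f` is smooth where `X > 0`. -/
theorem sm_chiC_mul {f : Fn} (hf : ∀ p : ℝ × ℝ, p.1 < 0 → 0 < Xf p.2 → ContDiffAt ℝ ∞ f p) :
    Sm (fun p => chiC p * f p) := by
  refine sm_of_eventuallyEq fun p hp => ?_
  by_cases hX : 0 < Xf p.2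
  · exact ⟨fun p => chiC p * f p, (sm_chiC.contDiffAt hp).mul (hf p hp hX), Filter.EventuallyEq.rfl⟩
  · refine ⟨fun _ => 0, contDiffAt_const, ?_⟩
    have h1 : ∀ᶠ p' : ℝ × ℝ in 𝓝 p, p'.1 < 0 :=
      ContinuousAt.eventually_lt continuous_fst.continuousAt continuousAt_const hp
    have c1 : Continuous (fun p' : ℝ × ℝ => Xf p'.2) := by
      unfold Xf
      fun_prop
    have c2 : Continuous (fun p' : ℝ × ℝ => (-p'.1) * Real.sqrt (-p'.1)) := by
      fun_prop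
    have h2 : ∀ᶠ p' : ℝ × ℝ in 𝓝 p, Xf p'.2 < (-p'.1) * Real.sqrt (-p'.1) :=
      ContinuousAt.eventually_lt c1.continuousAt c2.continuousAt
        (lt_of_le_of_lt (not_lt.1 hX) (mul_pos (by linarith) (Real.sqrt_pos.2 (by linarith))))
    filter_upwards [h1, h2] with p' hp1 hp2
    show chiC p' * f p' = 0
    have h3 : chiC (p'.1, p'.2) = 0 := chiC_eq_zero_of_X_le hp1 hp2.le
    rw [Prod.mk.eta] at h3
    rw [h3, zero_mul]

theorem bgCone_B_contDiffAt (q : ℝ) {p : ℝ × ℝ} (hp : 0 < Xf p.2) : ContDiffAt ℝ ∞ (bgCone q).B p := by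
  show ContDiffAt ℝ ∞ (fun p : ℝ × ℝ => (p.2 ^ 2 / z0F q - 1) / Xf p.2) p
  have h1 : ContDiffAt ℝ ∞ (fun p : ℝ × ℝ => p.2 ^ 2 / z0F q - 1) p :=
    ((contDiffAt_snd.pow 2).div_const _).sub contDiffAt_const
  have h2 : ContDiffAt ℝ ∞ (fun p : ℝ × ℝ => Xf p.2) p := by
    unfold Xf
    exact contDiffAt_const.sub (contDiffAt_snd.pow 2)
  exact h1.div h2 hp.ne'

theorem bgCone_w_contDiffAt {q : ℝ} (hq : 1 < q) {p : ℝ × ℝ} (hp : 0 < Xf p.2) :
    ContDiffAt ℝ ∞ (bgCone q).w p := by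
  show ContDiffAt ℝ ∞ (fun p : ℝ × ℝ => Real.log (Xf p.2 / (q - 1))) p
  have h2 : ContDiffAt ℝ ∞ (fun p : ℝ × ℝ => Xf p.2) p := by
    unfold Xf
    exact contDiffAt_const.sub (contDiffAt_snd.pow 2)
  exact (h2.div_const _).log (div_pos hp (by linarith)).ne'

/-- `1 + X B̃ > 0`. -/
theorem bgR_pos {q : ℝ} (hq : 1 < q) (hg : BgSm g) (ht : t < 0) (y : ℝ) :
    0 < 1 + Xf y * (bgR q g).B (t, y) := by
  have hχ0 := chiC_nonneg (t, y)
  have hχ1 := chiC_le_one (t, y)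
  have hpos := hg.pos t ht y
  show 0 < 1 + Xf y * ((1 - chiC (t, y)) * g.B (t, y) + chiC (t, y) * ((y ^ 2 / z0F q - 1) / Xf y))
  by_cases hχ : chiC (t, y) = 0
  · rw [hχ]
    simpa using hpos
  · have hX : 0 < Xf y := by
      by_contra hcon
      apply hχ
      apply chiC_eq_zero_of_X_le ht
      have h5 : 0 < (-t) * Real.sqrt (-t) := mul_pos (by linarith) (Real.sqrt_pos.2 (by linarith))
      linarith [not_lt.1 hcon]
    have hy : 3 / 4 < y := by
      by_contra hcon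
      exact hχ (chiC_eq_zero_of_y t (not_lt.1 hcon))
    have hz : 0 < z0F q := by
      unfold z0F
      exact div_pos (by linarith) (by linarith)
    have e : 1 + Xf y * ((1 - chiC (t, y)) * g.B (t, y) + chiC (t, y) * ((y ^ 2 / z0F q - 1) / Xf y))
        = (1 - chiC (t, y)) * (1 + Xf y * g.B (t, y)) + chiC (t, y) * (y ^ 2 / z0F q) := by
      field_simp
      ring
    rw [e]
    have h1 : 0 ≤ (1 - chiC (t, y)) * (1 + Xf y * g.B (t, y)) := mul_nonneg (by linarith) hpos.le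
    have h2 : 0 < chiC (t, y) * (y ^ 2 / z0F q) :=
      mul_pos (lt_of_le_of_ne hχ0 (Ne.symm hχ)) (div_pos (by positivity) hz)
    linarith

/-- **the reference background is a smooth background.** -/
theorem bgR_sm {q : ℝ} (hq : 1 < q) (hg : BgSm g) : BgSm (bgR q g) := by
  refine ⟨?_, ?_, ?_, fun t ht y => bgR_pos hq hg ht y⟩
  · exact (((sm_const 1).sub sm_chiC).mul hg.smB).add (sm_chiC_mul fun p _ hX => bgCone_B_contDiffAt q hX)
  · exact (((sm_const 1).sub sm_chiC).mul hg.smw).add (sm_chiC_mul fun p _ hX => bgCone_w_contDiffAt hq hX)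
  · exact ((sm_const 1).sub sm_chiC).mul hg.smW

theorem sm_Lt {q : ℝ} (hq : 1 < q) (hg : BgSm g) (hU : ∀ j, Sm (U j)) (j : Fin 3) : Sm (Lt q g U j) :=
  sm_Lop q (bgR_sm hq hg) hU j

theorem sm_NN {q : ℝ} (hq : 1 < q) (hg : BgSm g) (hU : ∀ j, Sm (U j)) (j : Fin 3) : Sm (NN q g U j) :=
  (sm_Rhs q hg hU j).sub (sm_Lt hq hg hU j)

end

end Claimed.Agent.R324.Core
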