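/-
Row 324 (S0582), PDE core, module PR (architect helper489), file Jet0: first and second `y`-derivatives of `X f`, `y f`, `tt f`; the triple `u = (σ, h₃, X b)`.     SORRY-FREE.
-/
import Claimed.Agent.R324.Core.PR.Sm

set_option autoImplicit false

namespace Claimed.Agent.R324.Core

open Set Filter Topology
open scoped ContDiff

noncomputable section

variable {f : Fn} {t : ℝ}

theorem dY_X_mul (hf : Sm f) (ht : t < 0) (y : ℝ) :
    dY (fun p => Xf p.2 * f p) (t, y) = -2 * y * f (t, y) + Xf y * dY f (t, y) := by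
  rw [dY_mul sm_Xf hf ht y, dY_Xf]

theorem dY_y_mul (hf : Sm f) (ht : t < 0) (y : ℝ) :
    dY (fun p => p.2 * f p) (t, y) = f (t, y) + y * dY f (t, y) := by
  rw [dY_mul sm_snd hf ht y, dY_snd, one_mul]

theorem dY_dY_X_mul (hf : Sm f) (ht : t < 0) (y : ℝ) :
    dY (dY (fun p => Xf p.2 * f p)) (t, y) = -2 * f (t, y) - 4 * y * dY f (t, y) + Xf y * dY (dY f) (t, y) := by
  have h1 : dY (dY (fun p => Xf p.2 * f p)) (t, y)
      = dY (fun p => (-2) * (p.2 * f p) + Xf p.2 * dY f p) (t, y) := by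
    refine dY_congr (fun z => ?_) y
    rw [dY_X_mul hf ht z]
    ring
  rw [h1, dY_add ((sm_snd.mul hf).const_mul _) (sm_Xf.mul hf.dY) ht y,
    dY_const_mul _ (sm_snd.mul hf) ht y, dY_y_mul hf ht y, dY_X_mul hf.dY ht y]
  ring

theorem ttF_apply (f : Fn) (p : ℝ × ℝ) : ttF f p = -(Xf p.2) * dY f p := rfl

theorem ttF_ttF (hf : Sm f) (ht : t < 0) (y : ℝ) :
    ttF (ttF f) (t, y) = (Xf y) ^ 2 * dY (dY f) (t, y) - 2 * y * Xf y * dY f (t, y) := by
  have h1 : dY (ttF f) (t, y) = dY (fun p => (-1) * (Xf p.2 * dY f p)) (t, y) := by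
    refine dY_congr (fun z => ?_) y
    rw [ttF_apply]
    ring
  rw [ttF_apply, h1, dY_const_mul _ (sm_Xf.mul hf.dY) ht y, dY_X_mul hf.dY ht y]
  ring

/-- `u = (σ, h₃, β)`, `β = X b`. -/
def uT (U : Tri) : Tri := fun i p => if i = 2 then Xf p.2 * U 2 p else U i p

theorem uT_zero (U : Tri) : uT U 0 = U 0 := by
  funext p
  simp [uT]

theorem uT_one (U : Tri) : uT U 1 = U 1 := by
  funext p
  simp [uT]

theorem uT_two (U : Tri) : uT U 2 = fun p => Xf p.2 * U 2 p := by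
  funext p
  simp [uT]

theorem uT_two_eq_beF (U : Tri) : uT U 2 = beF U := uT_two U

theorem sm_uT {U : Tri} (hU : ∀ j, Sm (U j)) (i : Fin 3) : Sm (uT U i) := by
  fin_cases i
  · exact (uT_zero U).symm ▸ hU 0
  · exact (uT_one U).symm ▸ hU 1
  · exact (uT_two U).symm ▸ sm_Xf.mul (hU 2)

/-- `tt (X f) = 2 y X f - X² f'`. -/
theorem ttF_X_mul (hf : Sm f) (ht : t < 0) (y : ℝ) :
    ttF (fun p => Xf p.2 * f p) (t, y) = 2 * y * Xf y * f (t, y) - (Xf y) ^ 2 * dY f (t, y) := by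
  rw [ttF_apply, dY_X_mul hf ht y]
  ring

/-- `tt² (X f) = X³ f'' - 6 y X² f' + (4 y² X - 2 X²) f`. -/
theorem ttF_ttF_X_mul (hf : Sm f) (ht : t < 0) (y : ℝ) :
    ttF (ttF (fun p => Xf p.2 * f p)) (t, y) =
      (Xf y) ^ 3 * dY (dY f) (t, y) - 6 * y * (Xf y) ^ 2 * dY f (t, y)
        + (4 * y ^ 2 * Xf y - 2 * (Xf y) ^ 2) * f (t, y) := by
  rw [ttF_ttF (sm_Xf.mul hf) ht y, dY_dY_X_mul hf ht y, dY_X_mul hf ht y]
  ring

/-- hygiene. -/
theorem core_pr_jet0_hygiene : True := by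
  have := @uT.eq_1
  trivial

end

end Claimed.Agent.R324.Core
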