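/-
Row 324 (S0582), PDE core, module PR (architect helper489), file TT  (PR5): the `tt`-form of the linearisation and the symmetry of the matrix `mF`.
   `u = uT U = (σ, h₃, X b)`,   `X (L u)_i = Z tt² u_i + b̂ tt u_i + Σ_j 𝐦_ij u_j`   (all real `y`, `t < 0`),      `κ_i 𝐦_ij = κ_j 𝐦_ji`.
-/
import Claimed.Agent.R324.Core.PR.Jet0
import Claimed.Agent.R324.Core.PR.SmBg

set_option autoImplicit false

namespace Claimed.Agent.R324.Core

open Set Filter Topology
open scoped ContDiff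

noncomputable section

variable {g : Bg} {U : Tri} {t : ℝ}

/-- `𝖽 = (X B)' = -2 y B + X B'`. -/
theorem BgSm.dd_eq (h : BgSm g) (ht : t < 0) (y : ℝ) :
    g.dd (t, y) = -2 * y * g.B (t, y) + Xf y * g.Bp (t, y) :=
  dY_X_mul h.smB ht y

/-- **PR5, the `tt`-form of `Lop`.**  No hypothesis on the background. -/
theorem lop_tt (q : ℝ) (g : Bg) (hU : ∀ j, Sm (U j)) (ht : t < 0) (y : ℝ) (i : Fin 3) :
    Xf y * uT (Lop q g U) i (t, y) =
      g.Z (t, y) * ttF (ttF (uT U i)) (t, y) + g.bh q (t, y) * ttF (uT U i) (t, y)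
        + ∑ j, mF q g i j (t, y) * uT U j (t, y) := by
  fin_cases i
  · simp only [Fin.zero_eta, Fin.sum_univ_three, uT_zero, uT_one, uT_two]
    rw [ttF_ttF (hU 0) ht y, ttF_apply]
    simp only [Lop, mF, Bg.bh, dimJ, facJ, Fin.sum_univ_three, Xf]
    simp
    ring
  · simp only [Fin.mk_one, Fin.sum_univ_three, uT_zero, uT_one, uT_two]
    rw [ttF_ttF (hU 1) ht y, ttF_apply]
    simp only [Lop, mF, Bg.bh, dimJ, facJ, Fin.sum_univ_three, Xf]
    simp
    ring
  · simp only [Fin.reduceFinMk, Fin.sum_univ_three, uT_zero, uT_one, uT_two]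
    rw [ttF_ttF_X_mul (hU 2) ht y, ttF_X_mul (hU 2) ht y]
    simp only [Lop, mF, Bg.bh, dimJ, facJ, Fin.sum_univ_three, Xf]
    simp
    ring

/-- the same in terms of slices and `tt`. -/
theorem lop_tt_sl (q : ℝ) (g : Bg) (hU : ∀ j, Sm (U j)) (ht : t < 0) (y : ℝ) (i : Fin 3) :
    Xf y * uT (Lop q g U) i (t, y) =
      g.Z (t, y) * tt (tt (sl (uT U i) t)) y + g.bh q (t, y) * tt (sl (uT U i) t) y
        + ∑ j, mF q g i j (t, y) * uT U j (t, y) :=
  lop_tt q g hU ht y i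

/-- the reference operator. -/
theorem lt_tt (q : ℝ) (g : Bg) (hU : ∀ j, Sm (U j)) (ht : t < 0) (y : ℝ) (i : Fin 3) :
    Xf y * uT (Lt q g U) i (t, y) =
      (bgR q g).Z (t, y) * ttF (ttF (uT U i)) (t, y) + (bgR q g).bh q (t, y) * ttF (uT U i) (t, y)
        + ∑ j, mF q (bgR q g) i j (t, y) * uT U j (t, y) :=
  lop_tt q (bgR q g) hU ht y i

/-- **PR5, symmetry.** -/
theorem mF_symm {q : ℝ} (hq : q + 1 ≠ 0) (hg : BgSm g) (ht : t < 0) (y : ℝ) (i j : Fin 3) :
    kapJ q i * mF q g i j (t, y) = kapJ q j * mF q g j i (t, y) := by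
  have hd := hg.dd_eq ht y
  have hD := hg.den_ne t ht y
  have hZ' : g.Z (t, y) = 1 / (1 + Xf y * g.B (t, y)) := rfl
  fin_cases i <;> fin_cases j <;> simp [kapJ, mF, Bg.cf] <;> (try rw [hd, hZ']) <;> field_simp <;>
    (try unfold Xf) <;> ring

end

end Claimed.Agent.R324.Core
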