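/-
Row 324 (S0582), PDE core, module PR (architect helper489), file Cone  (PR6, part 1): the coefficients of the exact cone `bgCone q` on `0 < y < 1`  (`X = Xf y = 1 - y² ∈ (0,1)`), `q > 1`, any `t`.
     `B = (y²/z₀ - 1)/X`,  `w = log (X/(q-1))`,  `W = 0`,   `z₀ = z0F q = (q-1)/(q+1)`.
     `Z = z₀/y²`,  `𝖽 = (X B)' = 2y/z₀`,  `w' = -2y/X`,  `w'' = -2/X - 4y²/X²`,  `e^{-w} = (q-1)/X`.
     RESULT:   `y² Z = z₀`,    `y b̂ - X Z = q - 1`,    `mF q (bgCone q) = mCone q`   (constant matrix).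
PROOFS of part A (one-variable calculus; `(bgCone q).B (t,z) = (z^2 / z0F q - 1) / Xf z` etc. by `rfl`):
 * `cone_dd`: `(bgCone q).dd (t,y) = deriv (fun z => Xf z * ((z^2/z₀ - 1)/Xf z)) y`; the function is `=ᶠ[𝓝 y] fun z => z^2/z₀ - 1` (on the open set `Ioo 0 1`, `Xf z ≠ 0`: `mul_div_cancel₀`), `Filter.EventuallyEq.deriv_eq`.
 * `cone_Bp`: `HasDerivAt.div` with `hasDerivAt_Xf`.      * `cone_wp`: `HasDerivAt.log` of `Xf z/(q-1)`.
 * `cone_wpp`: `dY (bgCone q).w (t,z) = -2 z/Xf z` for all `z ∈ Ioo 0 1` (`cone_wp`), so `=ᶠ`, then `HasDerivAt.div`.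
Statements FROZEN.  Helper lemmas: prefix `cone_`.
-/
import Claimed.Agent.R324.Core.PR.TT

set_option autoImplicit false

namespace Claimed.Agent.R324.Core

open Set Filter Topology
open scoped ContDiff

noncomputable section

variable {q t y : ℝ}

theorem cone_Xf_pos (hy : y ∈ Ioo (0 : ℝ) 1) : 0 < Xf y := by
  unfold Xf
  nlinarith [hy.1, hy.2]

theorem z0F_pos (hq : 1 < q) : 0 < z0F q := by
  unfold z0F
  exact div_pos (by linarith) (by linarith)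

/-! ### part A: the jets of the cone -/

theorem cone_B (q t y : ℝ) : (bgCone q).B (t, y) = (y ^ 2 / z0F q - 1) / Xf y := rfl

theorem cone_W (q : ℝ) (p : ℝ × ℝ) : (bgCone q).W p = 0 := rfl

theorem cone_Z (hq : 1 < q) (t : ℝ) (hy : y ∈ Ioo (0 : ℝ) 1) : (bgCone q).Z (t, y) = z0F q / y ^ 2 := by
  have hX0 : Xf y ≠ 0 := (cone_Xf_pos hy).ne'
  have hz : z0F q ≠ 0 := (z0F_pos hq).ne'
  have hy0 : y ≠ 0 := hy.1.ne'
  show 1 / (1 + Xf y * ((y ^ 2 / z0F q - 1) / Xf y)) = _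
  rw [mul_div_cancel₀ _ hX0]
  field_simp
  ring

theorem cone_a_num (q y : ℝ) : HasDerivAt (fun z : ℝ => z ^ 2 / z0F q - 1) (2 * y / z0F q) y := by
  have h := ((hasDerivAt_pow 2 y).div_const (z0F q)).sub_const 1
  simpa using h

theorem cone_dd (hq : 1 < q) (t : ℝ) (hy : y ∈ Ioo (0 : ℝ) 1) : (bgCone q).dd (t, y) = 2 * y / z0F q := by
  show deriv (fun z => Xf z * ((z ^ 2 / z0F q - 1) / Xf z)) y = _
  have he : (fun z => Xf z * ((z ^ 2 / z0F q - 1) / Xf z)) =ᶠ[𝓝 y] fun z => z ^ 2 / z0F q - 1 := by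
    filter_upwards [isOpen_Ioo.mem_nhds hy] with z hz
    exact mul_div_cancel₀ _ (cone_Xf_pos hz).ne'
  rw [he.deriv_eq]
  exact (cone_a_num q y).deriv

theorem cone_Bp (hq : 1 < q) (t : ℝ) (hy : y ∈ Ioo (0 : ℝ) 1) :
    (bgCone q).Bp (t, y) = (2 * y / z0F q * Xf y + 2 * y * (y ^ 2 / z0F q - 1)) / (Xf y) ^ 2 := by
  have hX0 : Xf y ≠ 0 := (cone_Xf_pos hy).ne'
  show deriv (fun z => (z ^ 2 / z0F q - 1) / Xf z) y = _
  rw [((cone_a_num q y).fun_div (hasDerivAt_Xf y) hX0).deriv]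
  congr 1
  ring

theorem cone_wp (hq : 1 < q) (t : ℝ) (hy : y ∈ Ioo (0 : ℝ) 1) : (bgCone q).wp (t, y) = -2 * y / Xf y := by
  have hX0 : Xf y ≠ 0 := (cone_Xf_pos hy).ne'
  have hq1 : q - 1 ≠ 0 := by linarith
  show deriv (fun z => Real.log (Xf z / (q - 1))) y = _
  rw [(((hasDerivAt_Xf y).div_const (q - 1)).log (div_ne_zero hX0 hq1)).deriv]
  field_simp

theorem cone_wpp (hq : 1 < q) (t : ℝ) (hy : y ∈ Ioo (0 : ℝ) 1) :
    (bgCone q).wpp (t, y) = -2 / Xf y - 4 * y ^ 2 / (Xf y) ^ 2 := by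
  have hX0 : Xf y ≠ 0 := (cone_Xf_pos hy).ne'
  show deriv (fun z => dY (bgCone q).w (t, z)) y = _
  have he : (fun z => dY (bgCone q).w (t, z)) =ᶠ[𝓝 y] fun z => -2 * z / Xf z := by
    filter_upwards [isOpen_Ioo.mem_nhds hy] with z hz
    exact cone_wp hq t hz
  rw [he.deriv_eq]
  have h1 : HasDerivAt (fun z : ℝ => -2 * z) (-2) y := by
    simpa using (hasDerivAt_id y).const_mul (-2 : ℝ)
  rw [(h1.fun_div (hasDerivAt_Xf y) hX0).deriv]
  field_simp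
  ring

theorem cone_exp_neg_w (hq : 1 < q) (t : ℝ) (hy : y ∈ Ioo (0 : ℝ) 1) :
    Real.exp (-(bgCone q).w (t, y)) = (q - 1) / Xf y := by
  have hX : 0 < Xf y := cone_Xf_pos hy
  have hq1 : 0 < q - 1 := by linarith
  show Real.exp (-Real.log (Xf y / (q - 1))) = _
  rw [Real.exp_neg, Real.exp_log (div_pos hX hq1), inv_div]

/-! ### the result -/

theorem cone_y2Z (hq : 1 < q) (t : ℝ) (hy : y ∈ Ioo (0 : ℝ) 1) : y ^ 2 * (bgCone q).Z (t, y) = z0F q := by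
  rw [cone_Z hq t hy]
  have hy0 : y ≠ 0 := hy.1.ne'
  field_simp

theorem cone_bh (hq : 1 < q) (t : ℝ) (hy : y ∈ Ioo (0 : ℝ) 1) :
    y * (bgCone q).bh q (t, y) - Xf y * (bgCone q).Z (t, y) = q - 1 := by
  have hX0 : Xf y ≠ 0 := (cone_Xf_pos hy).ne'
  have hy0 : y ≠ 0 := hy.1.ne'
  have hq1 : q - 1 ≠ 0 := by linarith
  have hq2 : q + 1 ≠ 0 := by linarith
  have hX : Xf y = 1 - y ^ 2 := rfl
  simp only [Bg.bh, Bg.w1, cone_Z hq t hy, cone_dd hq t hy, cone_wp hq t hy, cone_W, z0F]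
  generalize Xf y = X at *
  field_simp
  subst hX
  ring

set_option maxHeartbeats 4000000 in
/-- **PR6**: the matrix of the cone is constant. -/
theorem cone_mF (hq : 1 < q) (t : ℝ) (hy : y ∈ Ioo (0 : ℝ) 1) (i k : Fin 3) :
    mF q (bgCone q) i k (t, y) = mCone q i k := by
  have hX0 : Xf y ≠ 0 := (cone_Xf_pos hy).ne'
  have hy0 : y ≠ 0 := hy.1.ne'
  have hq1 : q - 1 ≠ 0 := by linarith
  have hq2 : q + 1 ≠ 0 := by linarith
  have hX : Xf y = 1 - y ^ 2 := rfl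
  have hB := cone_B q t y
  have hBp := cone_Bp hq t hy
  have hdd := cone_dd hq t hy
  have hwp := cone_wp hq t hy
  have hwpp := cone_wpp hq t hy
  have hew := cone_exp_neg_w hq t hy
  have hZ := cone_Z hq t hy
  have hW := cone_W q (t, y)
  generalize bgCone q = g at *
  fin_cases i <;> fin_cases k <;>
    simp [mF, mCone, Bg.cf, Bg.bh, Bg.w1, hB, hBp, hdd, hwp, hwpp, hew, hZ, hW, z0F] <;>
    generalize Xf y = X at * <;> field_simp <;> subst hX <;> ring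

end

end Claimed.Agent.R324.Core
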