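/-
Row 324 (S0582), PDE core, module PR (architect helper489), file Germ  (PR6, part 2): the coefficients of the linearisation depend only on the germ (in `y`, at fixed `t`) of the background;
the reference background `bgR q g` has the germ of the exact cone in the OPEN cone zone  `19/20 < y`, `2 Λ √Λ < X < √Λ`  and the germ of `g` where `chiC = 0` nearby;
the `θ`-form (`θ = tt / y = thF`) of `X L`:      `X (L u)_i = y² Z θ² u_i + (y b̂ - X Z) θ u_i + Σ_j 𝐦_ij u_j`      (`y ≠ 0`),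
and in the cone zone      `X (L̃ u)_i = z₀ θ² u_i + (q-1) θ u_i + Σ_j (m_c)_ij u_j`.
-/
import Claimed.Agent.R324.Core.PR.Cone
import Claimed.Agent.R324.Core.PR.SmR

set_option autoImplicit false

namespace Claimed.Agent.R324.Core

open Set Filter Topology
open scoped ContDiff

noncomputable section

variable {g g' : Bg} {U : Tri} {q t y : ℝ}

/-! ### germs of backgrounds -/

/-- `g` and `g'` have the same germ in `y` at `(t,y)`. -/
def BgEqAt (g g' : Bg) (t y : ℝ) : Prop :=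
  ∀ᶠ z in 𝓝 y, g.B (t, z) = g'.B (t, z) ∧ g.w (t, z) = g'.w (t, z) ∧ g.W (t, z) = g'.W (t, z)

theorem BgEqAt.refl (g : Bg) (t y : ℝ) : BgEqAt g g t y := Filter.Eventually.of_forall fun _ => ⟨rfl, rfl, rfl⟩

theorem BgEqAt.symm (h : BgEqAt g g' t y) : BgEqAt g' g t y :=
  h.mono fun _ hz => ⟨hz.1.symm, hz.2.1.symm, hz.2.2.symm⟩

theorem BgEqAt.eventually (h : BgEqAt g g' t y) : ∀ᶠ z in 𝓝 y, BgEqAt g g' t z :=
  eventually_eventually_nhds.2 h

theorem BgEqAt.B (h : BgEqAt g g' t y) : g.B (t, y) = g'.B (t, y) := h.self_of_nhds.1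

theorem BgEqAt.w (h : BgEqAt g g' t y) : g.w (t, y) = g'.w (t, y) := h.self_of_nhds.2.1

theorem BgEqAt.W (h : BgEqAt g g' t y) : g.W (t, y) = g'.W (t, y) := h.self_of_nhds.2.2

theorem BgEqAt.Z (h : BgEqAt g g' t y) : g.Z (t, y) = g'.Z (t, y) := by
  simp only [Bg.Z, h.B]

theorem BgEqAt.dd (h : BgEqAt g g' t y) : g.dd (t, y) = g'.dd (t, y) :=
  dY_congr_of_eventuallyEq (h.mono fun z hz => by simp only [hz.1])

theorem BgEqAt.Bp (h : BgEqAt g g' t y) : g.Bp (t, y) = g'.Bp (t, y) :=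
  dY_congr_of_eventuallyEq (h.mono fun _ hz => hz.1)

theorem BgEqAt.wp (h : BgEqAt g g' t y) : g.wp (t, y) = g'.wp (t, y) :=
  dY_congr_of_eventuallyEq (h.mono fun _ hz => hz.2.1)

theorem BgEqAt.dYW (h : BgEqAt g g' t y) : dY g.W (t, y) = dY g'.W (t, y) :=
  dY_congr_of_eventuallyEq (h.mono fun _ hz => hz.2.2)

theorem BgEqAt.wpp (h : BgEqAt g g' t y) : g.wpp (t, y) = g'.wpp (t, y) :=
  dY_congr_of_eventuallyEq (h.eventually.mono fun _ hz => hz.wp)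

theorem BgEqAt.ap (h : BgEqAt g g' t y) : g.ap (t, y) = g'.ap (t, y) := by
  simp only [Bg.ap, h.Z, h.dd]

theorem BgEqAt.app (h : BgEqAt g g' t y) : g.app (t, y) = g'.app (t, y) :=
  dY_congr_of_eventuallyEq (h.eventually.mono fun _ hz => hz.ap)

theorem BgEqAt.w1 (h : BgEqAt g g' t y) : g.w1 (t, y) = g'.w1 (t, y) := by
  simp only [Bg.w1, h.Z, h.dd, h.wp, h.W]

theorem BgEqAt.w0 (h : BgEqAt g g' t y) (q : ℝ) : g.w0 q (t, y) = g'.w0 q (t, y) := by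
  simp only [Bg.w0, h.Z, h.w1]

theorem BgEqAt.bh (h : BgEqAt g g' t y) (q : ℝ) : g.bh q (t, y) = g'.bh q (t, y) := by
  simp only [Bg.bh, h.Z, h.w1]

theorem BgEqAt.cf (h : BgEqAt g g' t y) (q : ℝ) (j k : Fin 3) : g.cf q j k (t, y) = g'.cf q j k (t, y) := by
  simp only [Bg.cf, h.Z, h.dd, h.B, h.wp, h.wpp, h.Bp, h.w, h.w1]

theorem BgEqAt.mF (h : BgEqAt g g' t y) (q : ℝ) (j k : Fin 3) : mF q g j k (t, y) = mF q g' j k (t, y) := by
  simp only [Core.mF, h.cf, h.Z, h.bh]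

theorem BgEqAt.Lop (h : BgEqAt g g' t y) (q : ℝ) (U : Tri) (j : Fin 3) :
    Lop q g U j (t, y) = Lop q g' U j (t, y) := by
  simp only [Core.Lop, h.cf, h.Z, h.w1]

/-! ### the germ of `bgR` -/

theorem bgR_eqAt_of_chiC_zero (q : ℝ) (g : Bg) (h : ∀ᶠ z in 𝓝 y, chiC (t, z) = 0) : BgEqAt (bgR q g) g t y :=
  h.mono fun z hz => by simp [bgR, hz]

theorem bgR_eqAt_of_chiC_one (q : ℝ) (g : Bg) (h : ∀ᶠ z in 𝓝 y, chiC (t, z) = 1) :
    BgEqAt (bgR q g) (bgCone q) t y :=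
  h.mono fun z hz => by simp [bgR, hz, bgCone]

theorem pr_continuous_Xf : Continuous Xf := by
  unfold Xf
  fun_prop

/-- the open cone zone. -/
def ConeZ (t y : ℝ) : Prop :=
  t < 0 ∧ 19 / 20 < y ∧ 2 * ((-t) * Real.sqrt (-t)) < Xf y ∧ Xf y < Real.sqrt (-t)

theorem ConeZ.eventually (h : ConeZ t y) : ∀ᶠ z in 𝓝 y, ConeZ t z := by
  obtain ⟨h0, h1, h2, h3⟩ := h
  filter_upwards [lt_mem_nhds h1, pr_continuous_Xf.continuousAt.eventually (lt_mem_nhds h2),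
    pr_continuous_Xf.continuousAt.eventually (gt_mem_nhds h3)] with z a b c
  exact ⟨h0, a, b, c⟩

theorem ConeZ.chiC (h : ConeZ t y) : chiC (t, y) = 1 := chiC_eq_one h.1 h.2.1.le h.2.2.1.le h.2.2.2.le

theorem ConeZ.mem_Ioo (h : ConeZ t y) : y ∈ Ioo (0 : ℝ) 1 := by
  obtain ⟨h0, h1, h2, h3⟩ := h
  have hp : 0 < (-t) * Real.sqrt (-t) := mul_pos (neg_pos.2 h0) (Real.sqrt_pos.2 (neg_pos.2 h0))
  have hX : 0 < Xf y := by linarith
  unfold Xf at hX
  constructor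
  · linarith
  · nlinarith

theorem ConeZ.eqAt (h : ConeZ t y) (q : ℝ) (g : Bg) : BgEqAt (bgR q g) (bgCone q) t y :=
  bgR_eqAt_of_chiC_one q g (h.eventually.mono fun _ hz => hz.chiC)

/-- **PR6**: in the cone zone the three coefficients of the `θ`-form of `X L̃` are those of the cone. -/
theorem ConeZ.y2Z (h : ConeZ t y) (hq : 1 < q) (g : Bg) : y ^ 2 * (bgR q g).Z (t, y) = z0F q := by
  rw [(h.eqAt q g).Z, cone_y2Z hq t h.mem_Ioo]

theorem ConeZ.bh (h : ConeZ t y) (hq : 1 < q) (g : Bg) :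
    y * (bgR q g).bh q (t, y) - Xf y * (bgR q g).Z (t, y) = q - 1 := by
  rw [(h.eqAt q g).Z, (h.eqAt q g).bh, cone_bh hq t h.mem_Ioo]

theorem ConeZ.mF (h : ConeZ t y) (hq : 1 < q) (g : Bg) (i k : Fin 3) :
    mF q (bgR q g) i k (t, y) = mCone q i k := by
  rw [(h.eqAt q g).mF, cone_mF hq t h.mem_Ioo]

/-- outside of the support of `chiC` the reference background is `g`. -/
theorem bgR_eqAt_of_y (q : ℝ) (g : Bg) (t : ℝ) (hy : y < 3 / 4) : BgEqAt (bgR q g) g t y :=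
  bgR_eqAt_of_chiC_zero q g ((gt_mem_nhds hy).mono fun _ hz => chiC_eq_zero_of_y t (le_of_lt hz))

theorem bgR_eqAt_of_X_lt (q : ℝ) (g : Bg) (ht : t < 0) (h : Xf y < (-t) * Real.sqrt (-t)) :
    BgEqAt (bgR q g) g t y :=
  bgR_eqAt_of_chiC_zero q g ((pr_continuous_Xf.continuousAt.eventually (gt_mem_nhds h)).mono
    fun _ hz => chiC_eq_zero_of_X_le ht (le_of_lt hz))

theorem bgR_eqAt_of_lt_X (q : ℝ) (g : Bg) (ht : t < 0) (h : 2 * Real.sqrt (-t) < Xf y) :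
    BgEqAt (bgR q g) g t y :=
  bgR_eqAt_of_chiC_zero q g ((pr_continuous_Xf.continuousAt.eventually (lt_mem_nhds h)).mono
    fun _ hz => chiC_eq_zero_of_le_X ht (le_of_lt hz))

/-! ### the `θ`-form -/

/-- `θ f = tt f / y`   (`= 2 X ∂_X f`). -/
def thF (f : Fn) : Fn := fun p => ttF f p / p.2

theorem thF_apply (f : Fn) (p : ℝ × ℝ) : thF f p = ttF f p / p.2 := rfl

theorem ttF_eq_y_mul_thF (f : Fn) (t : ℝ) (hy : y ≠ 0) : ttF f (t, y) = y * thF f (t, y) := by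
  rw [thF_apply]
  field_simp

theorem ttF_thF {f : Fn} (hf : Sm f) (ht : t < 0) (hy : y ≠ 0) :
    ttF (thF f) (t, y) = ttF (ttF f) (t, y) / y + Xf y * ttF f (t, y) / y ^ 2 := by
  have h1 : HasDerivAt (fun z => thF f (t, z))
      ((dY (ttF f) (t, y) * y - ttF f (t, y) * 1) / y ^ 2) y :=
    (hf.ttF.hasDerivAt_y ht y).div (hasDerivAt_id y) hy
  rw [ttF_apply, dY_of_hasDerivAt h1, ttF_apply (ttF f)]
  field_simp
  ring

theorem thF_thF {f : Fn} (hf : Sm f) (ht : t < 0) (hy : y ≠ 0) :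
    thF (thF f) (t, y) = ttF (ttF f) (t, y) / y ^ 2 + Xf y * ttF f (t, y) / y ^ 3 := by
  rw [thF_apply, ttF_thF hf ht hy]
  field_simp

theorem ttF_ttF_eq_thF {f : Fn} (hf : Sm f) (ht : t < 0) (hy : y ≠ 0) :
    ttF (ttF f) (t, y) = y ^ 2 * thF (thF f) (t, y) - Xf y * thF f (t, y) := by
  rw [thF_thF hf ht hy, thF_apply]
  field_simp
  ring

/-- **the `θ`-form of `Lop`**, `y ≠ 0`. -/
theorem lop_th (q : ℝ) (g : Bg) (hU : ∀ j, Sm (U j)) (ht : t < 0) (hy : y ≠ 0) (i : Fin 3) :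
    Xf y * uT (Lop q g U) i (t, y) =
      (y ^ 2 * g.Z (t, y)) * thF (thF (uT U i)) (t, y)
        + (y * g.bh q (t, y) - Xf y * g.Z (t, y)) * thF (uT U i) (t, y)
        + ∑ j, mF q g i j (t, y) * uT U j (t, y) := by
  rw [lop_tt q g hU ht y i, ttF_ttF_eq_thF (sm_uT hU i) ht hy, ttF_eq_y_mul_thF _ t hy]
  ring

/-- **PR6: the reference operator in the cone zone.** -/
theorem lt_cone (hq : 1 < q) (g : Bg) (hU : ∀ j, Sm (U j)) (h : ConeZ t y) (i : Fin 3) :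
    Xf y * uT (Lt q g U) i (t, y) =
      z0F q * thF (thF (uT U i)) (t, y) + (q - 1) * thF (uT U i) (t, y)
        + ∑ j, mCone q i j * uT U j (t, y) := by
  have h1 := lop_th q (bgR q g) hU h.1 h.mem_Ioo.1.ne' i
  rw [h.y2Z hq g, h.bh hq g] at h1
  simp only [h.mF hq g] at h1
  exact h1

/-- hygiene. -/
theorem core_pr_germ_hygiene : True := by
  have := @BgEqAt.eq_1
  have := @ConeZ.eq_1
  have := @thF.eq_1
  trivial

end

end Claimed.Agent.R324.Core
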