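/-
Row 324 (S0582), PDE core, module PR (architect helper489), file Id  (PR3): the pointwise identities.
   `X RbF = R1F - R2F`,   `X GbF = GAF - GBF`    (all real `y`, `t < 0`),
   `rfA + V la' + 2 V' = R1F + GAF`,   `rfB + V lb' = R2F + GBF`,   `rfC + V lc' = R3F + GCF`     (`-1 < y < 1`, `V = X W_tot`).
Method: rewrite every derivative by the jet formulas of Jet1.lean / La.lean, generalize the jets to real variables, `field_simp; ring`.
-/
import Claimed.Agent.R324.Core.PR.La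
import Claimed.Agent.R324.Core.PR.TT

set_option autoImplicit false

namespace Claimed.Agent.R324.Core

open Set Filter Topology
open scoped ContDiff

noncomputable section

variable {g : Bg} {U : Tri} {q t y : ℝ}

/-- **PR3 (b).** -/
theorem X_mul_GbF (q : ℝ) (hg : BgSm g) (ht : t < 0) (y : ℝ) :
    Xf y * GbF q g (t, y) = GAF q g (t, y) - GBF q g (t, y) := by
  have hd := hg.dd_eq ht y
  have hD := hg.den_ne t ht y
  have hZ : g.Z (t, y) = 1 / (1 + Xf y * g.B (t, y)) := rfl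
  simp only [GbF, GAF, GBF, DD, Bg.ap, Bg.wp, Bg.wpp]
  rw [hd, hZ]
  have hX : Xf y = 1 - y ^ 2 := rfl
  generalize Xf y = X at *
  generalize g.B (t, y) = B at *
  generalize g.Bp (t, y) = Bp at *
  generalize dY g.w (t, y) = w1 at *
  generalize dY (dY g.w) (t, y) = w2 at *
  generalize g.W (t, y) = W at *
  generalize dY g.W (t, y) = W1 at *
  field_simp
  subst hX
  ring

/-- `h₁' = h₂' + (X b)'`. -/
theorem dY_h1F_eq (hq : q + 1 ≠ 0) (hU : ∀ j, Sm (U j)) (ht : t < 0) (y : ℝ) :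
    dY (h1F q U) (t, y) = dY (h2F q U) (t, y) + (-2 * y * U 2 (t, y) + Xf y * dY (U 2) (t, y)) := by
  rw [dY_h1F q hU ht y, dY_h2F q hU ht y]
  field_simp
  ring

theorem dY_dY_h1F_eq (hq : q + 1 ≠ 0) (hU : ∀ j, Sm (U j)) (ht : t < 0) (y : ℝ) :
    dY (dY (h1F q U)) (t, y) = dY (dY (h2F q U)) (t, y)
      + (-2 * U 2 (t, y) - 4 * y * dY (U 2) (t, y) + Xf y * dY (dY (U 2)) (t, y)) := by
  rw [dY_dY_h1F q hU ht y, dY_dY_h2F q hU ht y]
  field_simp
  ring

set_option maxHeartbeats 4000000 in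
/-- **PR3 (a).** -/
theorem X_mul_RbF (hq : q + 1 ≠ 0) (hg : BgSm g) (hU : ∀ j, Sm (U j)) (ht : t < 0) (y : ℝ) :
    Xf y * RbF q g U (t, y) = R1F q g U (t, y) - R2F q g U (t, y) := by
  have hd := hg.dd_eq ht y
  have hD := hg.den_ne t ht y
  have hZ : g.Z (t, y) = 1 / (1 + Xf y * g.B (t, y)) := rfl
  have he1 := e1F_eq hq U (t, y)
  have hP1 : Ph1 (beF U (t, y)) = 1 - beF U (t, y) * Ph2 (beF U (t, y)) := by
    have := ph1_ph2 (beF U (t, y))
    linarith
  have hbe : beF U (t, y) = Xf y * U 2 (t, y) := rfl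
  simp only [RbF, R1F, R2F, DD, Bg.ap, Bg.w0, Bg.w1, bPh, GGF]
  rw [dY_GGF q hg hU ht y, dY_ggF q hg hU ht y, hg.app_eq ht y, hg.dY_Z ht y, dY_e1F q hU ht y,
    dY_e2F q hU ht y, dY_e3F hU ht y, dY_dY_h1F_eq hq hU ht y, dY_h1F_eq hq hU ht y]
  simp only [ggF]
  rw [he1, hP1, hbe, hd, hZ]
  have hX : Xf y = 1 - y ^ 2 := rfl
  generalize Ph2 (Xf y * U 2 (t, y)) = P2 at *
  generalize Xf y = X at *
  generalize g.B (t, y) = B at *
  generalize g.Bp (t, y) = Bp at *
  generalize dY g.dd (t, y) = d1 at *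
  generalize g.wp (t, y) = w1 at *
  generalize g.wpp (t, y) = w2 at *
  generalize g.W (t, y) = W at *
  generalize dY (h2F q U) (t, y) = H2p at *
  generalize dY (dY (h2F q U)) (t, y) = H2pp at *
  generalize U 2 (t, y) = b0 at *
  generalize dY (U 2) (t, y) = b1 at *
  generalize dY (dY (U 2)) (t, y) = b2 at *
  generalize dY (U 1) (t, y) = k1 at *
  generalize e2F q U (t, y) = e2 at *
  generalize e3F U (t, y) = e3 at *
  field_simp
  subst hX
  ring

set_option maxHeartbeats 4000000 in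
/-- **PR3 (B).** -/
theorem rfB_add (hq : q + 1 ≠ 0) (hg : BgSm g) (hU : ∀ j, Sm (U j)) (ht : t < 0) (hy : y ∈ Ioo (-1 : ℝ) 1) :
    rfB q (laOf (mA q U) (mB q g U) t) (lbOf (mA q U) t) (lcOf (mC g U) t) y
      + (1 - y ^ 2) * mW q g U (t, y) * deriv (lbOf (mA q U) t) y
    = R2F q g U (t, y) + GBF q g (t, y) := by
  have hX0 : Xf y ≠ 0 := (Xf_pos hy).ne'
  have hZ0 : g.Z (t, y) ≠ 0 := (hg.Z_pos ht y).ne'
  have hB : g.B (t, y) = (1 / g.Z (t, y) - 1) / Xf y := by
    have := hg.Z_mul ht y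
    field_simp
    linarith
  have hbp : bPh q U (t, y) = (e2F q U (t, y) - e1F q U (t, y)) / Xf y := by
    have := X_mul_bPh hq U (t, y)
    field_simp
    linarith
  have hV : (1 - y ^ 2) * mW q g U (t, y) = VF q g U (t, y) := X_mul_mW hq g U (t, y)
  unfold rfB
  rw [hV, exp_neg_laOf hq hg U ht hy, exp_neg_lbOf q U t hy, deriv_laOf hq hg hU ht hy,
    deriv_lbOf q hU ht hy, deriv_deriv_lbOf q hU ht hy, deriv_lcOf hg hU ht y]
  simp only [R2F, GBF, DD, Bg.ap, Bg.w0, Bg.w1, GGF, ggF, VF, la1F, lb1F, lb2F]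
  rw [hbp, hB]
  have hX : Xf y = 1 - y ^ 2 := rfl
  generalize Xf y = X at *
  generalize g.Z (t, y) = Z at *
  generalize g.dd (t, y) = d0 at *
  generalize g.wp (t, y) = w1 at *
  generalize g.W (t, y) = W at *
  generalize dY (h1F q U) (t, y) = H1p at *
  generalize dY (h2F q U) (t, y) = H2p at *
  generalize dY (dY (h2F q U)) (t, y) = H2pp at *
  generalize dY (U 1) (t, y) = k1 at *
  generalize e1F q U (t, y) = e1 at *
  generalize e2F q U (t, y) = e2 at *
  generalize e3F U (t, y) = e3 at *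
  field_simp
  subst hX
  ring

set_option maxHeartbeats 4000000 in
/-- **PR3 (C).** -/
theorem rfC_add (hq : q + 1 ≠ 0) (hg : BgSm g) (hU : ∀ j, Sm (U j)) (ht : t < 0) (hy : y ∈ Ioo (-1 : ℝ) 1) :
    rfC q (laOf (mA q U) (mB q g U) t) (lbOf (mA q U) t) (lcOf (mC g U) t) y
      + (1 - y ^ 2) * mW q g U (t, y) * deriv (lcOf (mC g U) t) y
    = R3F q g U (t, y) + GCF q g (t, y) := by
  have hX0 : Xf y ≠ 0 := (Xf_pos hy).ne'
  have hV : (1 - y ^ 2) * mW q g U (t, y) = VF q g U (t, y) := X_mul_mW hq g U (t, y)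
  unfold rfC
  rw [hV, exp_neg_laOf hq hg U ht hy, exp_neg_lcOf g U t y, deriv_laOf hq hg hU ht hy,
    deriv_lbOf q hU ht hy, deriv_lcOf hg hU ht y, deriv_deriv_lcOf hg hU ht y]
  simp only [R3F, GCF, DD, Bg.ap, Bg.w0, Bg.w1, GGF, ggF, VF, la1F, lb1F, Bg.wp, Bg.wpp]
  have hX : Xf y = 1 - y ^ 2 := rfl
  generalize Xf y = X at *
  generalize g.Z (t, y) = Z at *
  generalize g.dd (t, y) = d0 at *
  generalize dY g.w (t, y) = w1 at *
  generalize dY (dY g.w) (t, y) = w2 at *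
  generalize Real.exp (-g.w (t, y)) = P at *
  generalize g.W (t, y) = W at *
  generalize dY (h1F q U) (t, y) = H1p at *
  generalize dY (h2F q U) (t, y) = H2p at *
  generalize dY (U 1) (t, y) = k1 at *
  generalize dY (dY (U 1)) (t, y) = k2 at *
  generalize e1F q U (t, y) = e1 at *
  generalize e2F q U (t, y) = e2 at *
  generalize e3F U (t, y) = e3 at *
  field_simp
  subst hX
  ring

set_option maxHeartbeats 4000000 in
/-- **PR3 (A).** -/
theorem rfA_add (hq : q + 1 ≠ 0) (hg : BgSm g) (hU : ∀ j, Sm (U j)) (ht : t < 0) (hy : y ∈ Ioo (-1 : ℝ) 1) :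
    rfA q (laOf (mA q U) (mB q g U) t) (lbOf (mA q U) t) (lcOf (mC g U) t) y
      + (1 - y ^ 2) * mW q g U (t, y) * deriv (laOf (mA q U) (mB q g U) t) y
      + 2 * deriv (fun z => (1 - z ^ 2) * mW q g U (t, z)) y
    = R1F q g U (t, y) + GAF q g (t, y) := by
  have hX0 : Xf y ≠ 0 := (Xf_pos hy).ne'
  have hbp : bPh q U (t, y) = (e2F q U (t, y) - e1F q U (t, y)) / Xf y := by
    have := X_mul_bPh hq U (t, y)
    field_simp
    linarith
  have hV : (1 - y ^ 2) * mW q g U (t, y) = VF q g U (t, y) := X_mul_mW hq g U (t, y)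
  unfold rfA
  rw [hV, deriv_X_mul_mW hq g U t y, dY_VF q hg hU ht y, exp_neg_laOf hq hg U ht hy,
    deriv_laOf hq hg hU ht hy, deriv_lbOf q hU ht hy, deriv_deriv_lbOf q hU ht hy, deriv_lcOf hg hU ht y,
    deriv_deriv_lcOf hg hU ht y]
  simp only [R1F, GAF, DD, Bg.ap, Bg.w0, Bg.w1, GGF, VF, la1F, lb1F, lb2F]
  rw [dY_GGF q hg hU ht y, dY_ggF q hg hU ht y, hg.app_eq ht y, hg.dY_Z ht y, dY_e1F q hU ht y,
    dY_e2F q hU ht y, dY_e3F hU ht y, hbp]
  simp only [ggF, Bg.wp, Bg.wpp]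
  have hX : Xf y = 1 - y ^ 2 := rfl
  generalize Xf y = X at *
  generalize g.Z (t, y) = Z at *
  generalize g.dd (t, y) = d0 at *
  generalize dY g.dd (t, y) = d1 at *
  generalize dY g.w (t, y) = w1 at *
  generalize dY (dY g.w) (t, y) = w2 at *
  generalize g.W (t, y) = W at *
  generalize dY g.W (t, y) = W1 at *
  generalize dY (h1F q U) (t, y) = H1p at *
  generalize dY (dY (h1F q U)) (t, y) = H1pp at *
  generalize dY (h2F q U) (t, y) = H2p at *
  generalize dY (dY (h2F q U)) (t, y) = H2pp at *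
  generalize dY (U 1) (t, y) = k1 at *
  generalize dY (dY (U 1)) (t, y) = k2 at *
  generalize e1F q U (t, y) = e1 at *
  generalize e2F q U (t, y) = e2 at *
  generalize e3F U (t, y) = e3 at *
  field_simp
  subst hX
  ring

end

end Claimed.Agent.R324.Core
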