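/-
Row 324 (S0582), PDE core, module PR (architect helper489), file Jet1: `y`- and `t`-derivatives of the building blocks of the nonlinear system, at a point `(t,y)`, `t < 0`, `y` ANY real number.
HOW TO PROVE.  Every statement is a one-variable computation.  Recommended pattern:
   `have hZ := hg.smZ.hasDerivAt_y ht y`   (`: HasDerivAt (fun z => g.Z (t,z)) (dY g.Z (t,y)) y`),  the same for every factor (`Sm` of the factors: Core/PR/SmBg.lean, SmU.lean, black boxes),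
   `hasDerivAt_Xf y : HasDerivAt Xf (-2*y) y`, `hasDerivAt_id' y`;   combine with `.mul, .add, .sub, .const_mul, .div_const, .pow, .exp, .neg`;
   `refine dY_of_hasDerivAt ?_` (or `HasDerivAt.deriv`), `convert <the combined HasDerivAt> using 1` and close the two goals by `funext`/`rfl`/`unfold …` and `ring`.
 Or rewrite with the rules `dY_add, dY_sub, dY_mul, dY_const_mul, dY_exp, dY_X_mul, dY_y_mul, dY_congr` of Core/PR/Sm.lean, Jet0.lean.
 * `dY_Z`: `g.Z = fun p => 1 / (1 + X B)`;  `HasDerivAt.inv`/`.div` (`hg.den_ne`), `g.dd = dY (fun p => Xf p.2 * g.B p)` by definition;  `field_simp`.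
 * `app_eq`: `g.app = dY g.ap`, `g.ap = fun p => g.Z p * g.dd p`; `dY_mul`, `dY_Z`.
 * `h1F_sub_h2F`: `q/(q+1) + 1/(q+1) = 1` (`field_simp`).
 * `e1F_eq`: `h₁ = h₂ + β`, `Real.exp_add`/`Real.exp_neg`, `ph1_mul β : β * Ph1 β = 1 - exp (-β)`.
 * `X_mul_mW`: unfold, use `X_mul_bPh`; `ring`/`linear_combination`.
Statements FROZEN.  Helper lemmas: prefix `jet1_`.
-/
import Claimed.Agent.R324.Core.PR.Jet0
import Claimed.Agent.R324.Core.PR.SmU

set_option autoImplicit false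

namespace Claimed.Agent.R324.Core

open Set Filter Topology
open scoped ContDiff

noncomputable section

variable {g : Bg} {U : Tri} {q t : ℝ}

/-! ### part A: the background -/

theorem jet1_a_dY_den (h : BgSm g) (ht : t < 0) (y : ℝ) :
    dY (fun p => 1 + Xf p.2 * g.B p) (t, y) = g.dd (t, y) := by
  rw [dY_add (sm_const 1) (sm_Xf.mul h.smB) ht y, dY_const, zero_add]
  rfl

theorem jet1_a_dT_den (h : BgSm g) (ht : t < 0) (y : ℝ) :
    dT (fun p => 1 + Xf p.2 * g.B p) (t, y) = Xf y * dT g.B (t, y) := by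
  rw [dT_add (sm_const 1) (sm_Xf.mul h.smB) ht y, dT_const, zero_add, dT_y_mul Xf h.smB ht y]

theorem jet1_a_Z_eq (g : Bg) : g.Z = fun p => (1 + Xf p.2 * g.B p)⁻¹ := by
  funext p
  unfold Bg.Z
  rw [one_div]

theorem BgSm.dY_Z (h : BgSm g) (ht : t < 0) (y : ℝ) : dY g.Z (t, y) = -(g.Z (t, y)) ^ 2 * g.dd (t, y) := by
  have h0 := h.den_ne t ht y
  rw [jet1_a_Z_eq g, dY_inv h.smden ht y h0, jet1_a_dY_den h ht y]
  simp only []
  field_simp

theorem BgSm.dT_Z (h : BgSm g) (ht : t < 0) (y : ℝ) :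
    dT g.Z (t, y) = -(g.Z (t, y)) ^ 2 * (Xf y * dT g.B (t, y)) := by
  have h0 := h.den_ne t ht y
  rw [jet1_a_Z_eq g, dT_inv h.smden ht y h0, jet1_a_dT_den h ht y]
  simp only []
  field_simp

theorem BgSm.app_eq (h : BgSm g) (ht : t < 0) (y : ℝ) :
    g.app (t, y) = -(g.Z (t, y)) ^ 2 * (g.dd (t, y)) ^ 2 + g.Z (t, y) * dY g.dd (t, y) := by
  show dY (fun p => g.Z p * g.dd p) (t, y) = _
  rw [dY_mul h.smZ h.smdd ht y, h.dY_Z ht y]
  ring

/-- `a = log (1 + X B)`:  `a' = Z 𝖽`. -/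
theorem BgSm.dY_log_den (h : BgSm g) (ht : t < 0) (y : ℝ) :
    dY (fun p => Real.log (1 + Xf p.2 * g.B p)) (t, y) = g.ap (t, y) := by
  have h0 := h.den_ne t ht y
  rw [dY_log h.smden ht y h0, jet1_a_dY_den h ht y]
  show _ = g.Z (t, y) * g.dd (t, y)
  rw [jet1_a_Z_eq g]
  simp only []
  field_simp

/-- `∂_t a = X Z ∂_t B`. -/
theorem BgSm.dT_log_den (h : BgSm g) (ht : t < 0) (y : ℝ) :
    dT (fun p => Real.log (1 + Xf p.2 * g.B p)) (t, y) = Xf y * g.Z (t, y) * dT g.B (t, y) := by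
  have h0 := h.den_ne t ht y
  rw [dT_log h.smden ht y h0, jet1_a_dT_den h ht y, jet1_a_Z_eq g]
  simp only []
  field_simp

/-! ### part B: `h₁, h₂, e_i` -/

theorem dY_h1F (q : ℝ) (hU : ∀ j, Sm (U j)) (ht : t < 0) (y : ℝ) :
    dY (h1F q U) (t, y) = dY (U 0) (t, y) + q / (q + 1) * (-2 * y * U 2 (t, y) + Xf y * dY (U 2) (t, y)) := by
  show dY (fun p => U 0 p + q / (q + 1) * (Xf p.2 * U 2 p)) (t, y) = _
  rw [dY_add (hU 0) ((sm_Xf.mul (hU 2)).const_mul _) ht y, dY_const_mul _ (sm_Xf.mul (hU 2)) ht y,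
    dY_X_mul (hU 2) ht y]

theorem dY_h2F (q : ℝ) (hU : ∀ j, Sm (U j)) (ht : t < 0) (y : ℝ) :
    dY (h2F q U) (t, y) = dY (U 0) (t, y) - 1 / (q + 1) * (-2 * y * U 2 (t, y) + Xf y * dY (U 2) (t, y)) := by
  show dY (fun p => U 0 p - 1 / (q + 1) * (Xf p.2 * U 2 p)) (t, y) = _
  rw [dY_sub (hU 0) ((sm_Xf.mul (hU 2)).const_mul _) ht y, dY_const_mul _ (sm_Xf.mul (hU 2)) ht y,
    dY_X_mul (hU 2) ht y]

theorem dY_dY_h1F (q : ℝ) (hU : ∀ j, Sm (U j)) (ht : t < 0) (y : ℝ) :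
    dY (dY (h1F q U)) (t, y) = dY (dY (U 0)) (t, y)
      + q / (q + 1) * (-2 * U 2 (t, y) - 4 * y * dY (U 2) (t, y) + Xf y * dY (dY (U 2)) (t, y)) := by
  have h1 : dY (dY (h1F q U)) (t, y)
      = dY (fun p => dY (U 0) p + q / (q + 1) * dY (fun p => Xf p.2 * U 2 p) p) (t, y) := by
    refine dY_congr (fun z => ?_) y
    rw [dY_h1F q hU ht z, dY_X_mul (hU 2) ht z]
  rw [h1, dY_add (hU 0).dY ((sm_Xf.mul (hU 2)).dY.const_mul _) ht y,
    dY_const_mul _ (sm_Xf.mul (hU 2)).dY ht y, dY_dY_X_mul (hU 2) ht y]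

theorem dY_dY_h2F (q : ℝ) (hU : ∀ j, Sm (U j)) (ht : t < 0) (y : ℝ) :
    dY (dY (h2F q U)) (t, y) = dY (dY (U 0)) (t, y)
      - 1 / (q + 1) * (-2 * U 2 (t, y) - 4 * y * dY (U 2) (t, y) + Xf y * dY (dY (U 2)) (t, y)) := by
  have h1 : dY (dY (h2F q U)) (t, y)
      = dY (fun p => dY (U 0) p - 1 / (q + 1) * dY (fun p => Xf p.2 * U 2 p) p) (t, y) := by
    refine dY_congr (fun z => ?_) y
    rw [dY_h2F q hU ht z, dY_X_mul (hU 2) ht z]
  rw [h1, dY_sub (hU 0).dY ((sm_Xf.mul (hU 2)).dY.const_mul _) ht y,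
    dY_const_mul _ (sm_Xf.mul (hU 2)).dY ht y, dY_dY_X_mul (hU 2) ht y]

theorem dT_h1F (q : ℝ) (hU : ∀ j, Sm (U j)) (ht : t < 0) (y : ℝ) :
    dT (h1F q U) (t, y) = dT (U 0) (t, y) + q / (q + 1) * (Xf y * dT (U 2) (t, y)) := by
  show dT (fun p => U 0 p + q / (q + 1) * (Xf p.2 * U 2 p)) (t, y) = _
  rw [dT_add (hU 0) ((sm_Xf.mul (hU 2)).const_mul _) ht y, dT_const_mul _ (sm_Xf.mul (hU 2)) ht y,
    dT_y_mul Xf (hU 2) ht y]

theorem dT_h2F (q : ℝ) (hU : ∀ j, Sm (U j)) (ht : t < 0) (y : ℝ) :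
    dT (h2F q U) (t, y) = dT (U 0) (t, y) - 1 / (q + 1) * (Xf y * dT (U 2) (t, y)) := by
  show dT (fun p => U 0 p - 1 / (q + 1) * (Xf p.2 * U 2 p)) (t, y) = _
  rw [dT_sub (hU 0) ((sm_Xf.mul (hU 2)).const_mul _) ht y, dT_const_mul _ (sm_Xf.mul (hU 2)) ht y,
    dT_y_mul Xf (hU 2) ht y]

theorem h1F_sub_h2F (hq : q + 1 ≠ 0) (U : Tri) (p : ℝ × ℝ) : h1F q U p - h2F q U p = beF U p := by
  unfold h1F h2F beF
  field_simp
  ring

theorem dY_e1F (q : ℝ) (hU : ∀ j, Sm (U j)) (ht : t < 0) (y : ℝ) :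
    dY (e1F q U) (t, y) = -dY (h1F q U) (t, y) * e1F q U (t, y) := by
  show dY (fun p => Real.exp (-h1F q U p)) (t, y) = _
  rw [dY_exp (sm_h1F q hU).neg ht y, dY_neg (sm_h1F q hU) ht y]
  unfold e1F
  ring

theorem dY_e2F (q : ℝ) (hU : ∀ j, Sm (U j)) (ht : t < 0) (y : ℝ) :
    dY (e2F q U) (t, y) = -dY (h2F q U) (t, y) * e2F q U (t, y) := by
  show dY (fun p => Real.exp (-h2F q U p)) (t, y) = _
  rw [dY_exp (sm_h2F q hU).neg ht y, dY_neg (sm_h2F q hU) ht y]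
  unfold e2F
  ring

theorem dY_e3F (hU : ∀ j, Sm (U j)) (ht : t < 0) (y : ℝ) :
    dY (e3F U) (t, y) = -dY (U 1) (t, y) * e3F U (t, y) := by
  show dY (fun p => Real.exp (-U 1 p)) (t, y) = _
  rw [dY_exp (hU 1).neg ht y, dY_neg (hU 1) ht y]
  unfold e3F
  ring

/-- `e₁ = e₂ e^{-β} = e₂ (1 - β Φ₁(β))`. -/
theorem e1F_eq (hq : q + 1 ≠ 0) (U : Tri) (p : ℝ × ℝ) :
    e1F q U p = e2F q U p * (1 - beF U p * Ph1 (beF U p)) := by
  have h := h1F_sub_h2F hq U p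
  rw [ph1_mul]
  unfold e1F e2F
  have h2 : -h1F q U p = -h2F q U p + -beF U p := by rw [← h]; ring
  rw [h2, Real.exp_add]
  ring

/-- `e₂ - e₁ = X b e₂ Φ₁(β)`. -/
theorem X_mul_bPh (hq : q + 1 ≠ 0) (U : Tri) (p : ℝ × ℝ) :
    Xf p.2 * bPh q U p = e2F q U p - e1F q U p := by
  rw [e1F_eq hq U p]
  unfold bPh
  have h : beF U p = Xf p.2 * U 2 p := rfl
  rw [h]
  ring

/-- `A + X B = e^{h₁}/Z`. -/
theorem mA_add_X_mB (hq : q + 1 ≠ 0) (g : Bg) (U : Tri) (p : ℝ × ℝ) :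
    mA q U p + Xf p.2 * mB q g U p = Real.exp (h1F q U p) * (1 + Xf p.2 * g.B p) := by
  have h := h1F_sub_h2F hq U p
  have h1 := ph1_neg_mul (beF U p)
  have h2 : h1F q U p = h2F q U p + beF U p := by rw [← h]; ring
  have h3 : beF U p = Xf p.2 * U 2 p := rfl
  unfold mA mB
  rw [h2, Real.exp_add]
  rw [h3] at h1 ⊢
  linear_combination Real.exp (h2F q U p) * h1

/-! ### part C: `𝗀`, `G`, `V = X W_tot` -/

theorem dY_ggF (q : ℝ) (hg : BgSm g) (hU : ∀ j, Sm (U j)) (ht : t < 0) (y : ℝ) :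
    dY (ggF q g U) (t, y) =
      dY (e1F q U) (t, y) * (g.Z (t, y)) ^ 2 * g.dd (t, y) / 2
      + (e1F q U (t, y) - 1) * (2 * g.Z (t, y) * dY g.Z (t, y) * g.dd (t, y) + (g.Z (t, y)) ^ 2 * dY g.dd (t, y)) / 2
      - (dY g.Z (t, y) * g.wp (t, y) + g.Z (t, y) * g.wpp (t, y)) * (e3F U (t, y) - 1)
      - g.Z (t, y) * g.wp (t, y) * dY (e3F U) (t, y) := by
  have hZ := hg.smZ.hasDerivAt_y ht y
  have hdd := hg.smdd.hasDerivAt_y ht y
  have he1 := (sm_e1F q hU).hasDerivAt_y ht y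
  have he3 := (sm_e3F hU).hasDerivAt_y ht y
  have hwp : HasDerivAt (fun z => g.wp (t, z)) (g.wpp (t, y)) y := hg.smwp.hasDerivAt_y ht y
  have H := ((((he1.sub_const 1).mul (hZ.pow 2)).mul hdd).div_const 2).sub
    ((hZ.mul hwp).mul (he3.sub_const 1))
  refine (dY_of_hasDerivAt (f := ggF q g U) H).trans ?_
  simp only [Pi.mul_apply, Pi.pow_apply]
  push_cast
  ring

theorem dY_GGF (q : ℝ) (hg : BgSm g) (hU : ∀ j, Sm (U j)) (ht : t < 0) (y : ℝ) :
    dY (GGF q g U) (t, y) =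
      -2 * y * ggF q g U (t, y) + Xf y * dY (ggF q g U) (t, y) + q * g.Z (t, y) * (e2F q U (t, y) - 1)
      + q * y * dY g.Z (t, y) * (e2F q U (t, y) - 1) + q * y * g.Z (t, y) * dY (e2F q U) (t, y) := by
  have hX := hasDerivAt_Xf y
  have hid := hasDerivAt_id' y
  have hZ := hg.smZ.hasDerivAt_y ht y
  have he2 := (sm_e2F q hU).hasDerivAt_y ht y
  have hgg := (sm_ggF q hg hU).hasDerivAt_y ht y
  have H := (hX.mul hgg).add (((hid.const_mul q).mul hZ).mul (he2.sub_const 1))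
  refine (dY_of_hasDerivAt (f := GGF q g U) H).trans ?_
  simp only [Pi.mul_apply]
  ring

/-- `V = X W_tot = X W̄ - 𝗐_DT`, written without `Φ₁`. -/
def VF (q : ℝ) (g : Bg) (U : Tri) : Fn := fun p =>
  Xf p.2 * g.W p - (Xf p.2 * g.Z p * e1F q U p * (-dY (h1F q U) p / 2 + q / 2 * dY (h2F q U) p + dY (U 1) p)
    + q * p.2 * g.Z p * (e2F q U p - e1F q U p) - Xf p.2 * g.Z p * g.wp p * (e3F U p - e1F q U p))

theorem X_mul_mW (hq : q + 1 ≠ 0) (g : Bg) (U : Tri) (p : ℝ × ℝ) : Xf p.2 * mW q g U p = VF q g U p := by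
  have h := X_mul_bPh hq U p
  unfold mW VF
  linear_combination (-(q * p.2 * g.Z p)) * h

set_option linter.unusedTactic false in
set_option linter.unreachableTactic false in
theorem sm_VF (q : ℝ) (hg : BgSm g) (hU : ∀ j, Sm (U j)) : Sm (VF q g U) := by
  unfold VF
  repeat' first
    | exact hg.smZ | exact hg.smW | exact hg.smwp
    | exact hU _ | exact sm_e1F q hU | exact sm_e2F q hU | exact sm_e3F hU
    | exact sm_h1F q hU | exact sm_h2F q hU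
    | exact sm_const _ | exact sm_snd | exact sm_Xf
    | apply Sm.dY | apply Sm.div_const
    | apply Sm.add | apply Sm.sub | apply Sm.mul | apply Sm.neg

theorem dY_VF (q : ℝ) (hg : BgSm g) (hU : ∀ j, Sm (U j)) (ht : t < 0) (y : ℝ) :
    dY (VF q g U) (t, y) =
      -2 * y * g.W (t, y) + Xf y * dY g.W (t, y)
      - ((-2 * y * g.Z (t, y) * e1F q U (t, y) + Xf y * dY g.Z (t, y) * e1F q U (t, y)
            + Xf y * g.Z (t, y) * dY (e1F q U) (t, y))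
          * (-dY (h1F q U) (t, y) / 2 + q / 2 * dY (h2F q U) (t, y) + dY (U 1) (t, y))
        + Xf y * g.Z (t, y) * e1F q U (t, y)
          * (-dY (dY (h1F q U)) (t, y) / 2 + q / 2 * dY (dY (h2F q U)) (t, y) + dY (dY (U 1)) (t, y))
        + q * g.Z (t, y) * (e2F q U (t, y) - e1F q U (t, y))
        + q * y * dY g.Z (t, y) * (e2F q U (t, y) - e1F q U (t, y))
        + q * y * g.Z (t, y) * (dY (e2F q U) (t, y) - dY (e1F q U) (t, y))
        - (-2 * y * g.Z (t, y) * g.wp (t, y) + Xf y * dY g.Z (t, y) * g.wp (t, y)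
            + Xf y * g.Z (t, y) * g.wpp (t, y)) * (e3F U (t, y) - e1F q U (t, y))
        - Xf y * g.Z (t, y) * g.wp (t, y) * (dY (e3F U) (t, y) - dY (e1F q U) (t, y))) := by
  have hX := hasDerivAt_Xf y
  have hid := hasDerivAt_id' y
  have hW := hg.smW.hasDerivAt_y ht y
  have hZ := hg.smZ.hasDerivAt_y ht y
  have he1 := (sm_e1F q hU).hasDerivAt_y ht y
  have he2 := (sm_e2F q hU).hasDerivAt_y ht y
  have he3 := (sm_e3F hU).hasDerivAt_y ht y
  have hh1 := (sm_h1F q hU).dY.hasDerivAt_y ht y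
  have hh2 := (sm_h2F q hU).dY.hasDerivAt_y ht y
  have hU1 := (hU 1).dY.hasDerivAt_y ht y
  have hwp : HasDerivAt (fun z => g.wp (t, z)) (g.wpp (t, y)) y := hg.smwp.hasDerivAt_y ht y
  have H := (hX.mul hW).sub
    (((((hX.mul hZ).mul he1).mul (((hh1.neg.div_const 2).add (hh2.const_mul (q / 2))).add hU1)).add
      (((hid.const_mul q).mul hZ).mul (he2.sub he1))).sub (((hX.mul hZ).mul hwp).mul (he3.sub he1)))
  refine (dY_of_hasDerivAt (f := VF q g U) H).trans ?_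
  simp only [Pi.mul_apply, Pi.add_apply, Pi.sub_apply, Pi.neg_apply]
  ring

/-- hygiene. -/
theorem core_pr_jet1_hygiene : True := by
  have := @VF.eq_1
  trivial

end

end Claimed.Agent.R324.Core
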