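/-
Row 324 (S0582), PDE core, module PR (architect helper489), file GF  (PR4): a smooth solution of the nonlinear system `NLU` is a gauged reduced Ricci flow `RedGF`.
-/
import Claimed.Agent.R324.Core.PR.Id

set_option autoImplicit false

namespace Claimed.Agent.R324.Core

open Set Filter Topology
open scoped ContDiff

noncomputable section

variable {g : Bg} {U : Tri} {q t t₀ y : ℝ}

/-- `∂_t h₁ = R1F - E₁`. -/
theorem nlu_h1 (hq : q + 1 ≠ 0) (hg : BgSm g) (hU : ∀ j, Sm (U j)) (h : NLU q g t₀ U) (ht : t ∈ Ioo t₀ 0)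
    (hy : y ∈ Icc (-1 : ℝ) 1) :
    dT (h1F q U) (t, y) = R1F q g U (t, y) - Xf y * g.Z (t, y) * dT g.B (t, y) + GAF q g (t, y) := by
  have h0 : dT (U 0) (t, y) = (R1F q g U (t, y) + q * R2F q g U (t, y)) / (q + 1)
      - (Xf y * g.Z (t, y) * dT g.B (t, y) - GAF q g (t, y) - q * GBF q g (t, y)) / (q + 1) := h 0 t ht y hy
  have h2 : dT (U 2) (t, y) = RbF q g U (t, y) - (g.Z (t, y) * dT g.B (t, y) - GbF q g (t, y)) := h 2 t ht y hy
  have e1 := X_mul_RbF hq hg hU ht.2 y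
  have e2 := X_mul_GbF q hg ht.2 y
  rw [dT_h1F q hU ht.2 y, h0, h2]
  field_simp
  linear_combination q * e1 + q * e2

/-- `∂_t h₂ = R2F - E₂`. -/
theorem nlu_h2 (hq : q + 1 ≠ 0) (hg : BgSm g) (hU : ∀ j, Sm (U j)) (h : NLU q g t₀ U) (ht : t ∈ Ioo t₀ 0)
    (hy : y ∈ Icc (-1 : ℝ) 1) :
    dT (h2F q U) (t, y) = R2F q g U (t, y) + GBF q g (t, y) := by
  have h0 : dT (U 0) (t, y) = (R1F q g U (t, y) + q * R2F q g U (t, y)) / (q + 1)
      - (Xf y * g.Z (t, y) * dT g.B (t, y) - GAF q g (t, y) - q * GBF q g (t, y)) / (q + 1) := h 0 t ht y hy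
  have h2 : dT (U 2) (t, y) = RbF q g U (t, y) - (g.Z (t, y) * dT g.B (t, y) - GbF q g (t, y)) := h 2 t ht y hy
  have e1 := X_mul_RbF hq hg hU ht.2 y
  have e2 := X_mul_GbF q hg ht.2 y
  rw [dT_h2F q hU ht.2 y, h0, h2]
  field_simp
  linear_combination -e1 - e2

/-- `∂_t h₃ = R3F - E₃`. -/
theorem nlu_h3 (h : NLU q g t₀ U) (ht : t ∈ Ioo t₀ 0) (hy : y ∈ Icc (-1 : ℝ) 1) :
    dT (U 1) (t, y) = R3F q g U (t, y) - (dT g.w (t, y) - GCF q g (t, y)) := h 1 t ht y hy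

/-- **PR4.** -/
theorem pr_nlu_to_gf (q : ℕ) (g : Bg) (hg : BgSm g) (U : Tri) (hU : ∀ j, Sm (U j)) (t₀ : ℝ)
    (ht₀ : t₀ < 0) (h : NLU q g t₀ U) :
    RedGF q t₀ 0 (mA q U) (mB q g U) (mC g U) (mW q g U) := by
  have hq : (q : ℝ) + 1 ≠ 0 := by positivity
  refine
    { smA := (sm_mA q hU).mono_Ioo t₀
      smB := (sm_mB q hg hU).mono_Ioo t₀
      smC := (sm_mC hg hU).mono_Ioo t₀
      posA := fun t _ y _ => Real.exp_pos _
      posE := fun t ht y _ => ?_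
      posC := fun t _ y _ => Real.exp_pos _
      lt := ht₀
      smW := (sm_mW q hg hU).mono_Ioo t₀
      flowA := fun t ht y hy => ?_
      flowB := fun t ht y hy => ?_
      flowC := fun t ht y hy => ?_ }
  · have h1 := mA_add_X_mB hq g U (t, y)
    have h2 : mA q U (t, y) + (1 - y ^ 2) * mB q g U (t, y)
        = Real.exp (h1F q U (t, y)) * (1 + Xf y * g.B (t, y)) := h1
    rw [h2]
    exact mul_pos (Real.exp_pos _) (hg.pos t ht.2 y)
  · rw [rfA_add hq hg hU ht.2 hy, dt_laOf hq hg hU ht.2 hy,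
      nlu_h1 hq hg hU h ht (Ioo_subset_Icc_self hy)]
    ring
  · rw [rfB_add hq hg hU ht.2 hy, dt_lbOf q hU ht.2 hy, nlu_h2 hq hg hU h ht (Ioo_subset_Icc_self hy)]
  · rw [rfC_add hq hg hU ht.2 hy, dt_lcOf hg hU ht.2 y, nlu_h3 h ht (Ioo_subset_Icc_self hy)]
    ring

end

end Claimed.Agent.R324.Core
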