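/-
Row 324 (S0582), PDE core, module PR (architect helper489), file La: the functions `la = laOf mA mB t`, `lb = lbOf mA t`, `lc = lcOf mC t` of R324/Reduced.lean for the metric `(mA, mB, mC)` of Core/Defs.lean.
On `-1 < y < 1`, `t < 0`  (`X = Xf y = 1 - y² > 0`;  note `Xf y = 1 - y ^ 2` is `rfl`):
     `la = h₁ + log (1 + X B̄) - log X`,      `lb = h₂ + log X`,      `lc = w + h₃` (all `y`).
PROOFS.
 * `laOf_eq`: `laOf A B t y = log ((A + X B)/X)`; `mA_add_X_mB` (Jet1); `Real.log_div`, `Real.log_mul`, `Real.log_exp` (positivity: `Real.exp_pos`, `hg.pos`).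
 * `lbOf_eq`: `Real.log_mul`, `Real.log_exp`.      `lcOf_eq`: `Real.log_exp`.
 * `exp_neg_*`: from `*_eq`: `Real.exp_sub/exp_add/exp_neg/exp_log`; `g.Z = 1/(1 + X B̄)`; or directly `Real.exp_neg, Real.exp_log` on the definition.
 * derivatives in `y`: the equalities `*_eq` hold on the OPEN interval, so `laOf .. t =ᶠ[𝓝 y] fun z => …` (`Ioo_mem_nhds`), `Filter.EventuallyEq.deriv_eq`;  then `HasDerivAt` of the explicit function:
   `(sm_h1F q hU).hasDerivAt_y ht y`, `hg.dY_log_den`, `(hasDerivAt_Xf y).log`  (`(log X)' = -2y/X`).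
   Second derivative of `lb`: `deriv (lbOf .. t) =ᶠ[𝓝 y] fun z => lb1F q U (t,z)` (first derivative formula on the open interval), then differentiate `lb1F`:  `(2y/X)' = 2/X + 4y²/X²`.
 * derivatives in `t` (`y` fixed in `(-1,1)`): the equalities hold for all `s < 0`: `=ᶠ[𝓝 t]` by `Iio_mem_nhds ht`;  `hg.dT_log_den`, `log X` is constant in `t`.
Statements FROZEN.  Helper lemmas: prefix `la_`.
-/
import Claimed.Agent.R324.Core.PR.Jet1

set_option autoImplicit false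

namespace Claimed.Agent.R324.Core

open Set Filter Topology
open scoped ContDiff

noncomputable section

variable {g : Bg} {U : Tri} {q t y : ℝ}

theorem Xf_pos (hy : y ∈ Ioo (-1 : ℝ) 1) : 0 < Xf y := by
  unfold Xf
  nlinarith [hy.1, hy.2]

/-- `la'`. -/
def la1F (q : ℝ) (g : Bg) (U : Tri) : Fn := fun p => dY (h1F q U) p + g.ap p + 2 * p.2 / Xf p.2

/-- `lb'`. -/
def lb1F (q : ℝ) (U : Tri) : Fn := fun p => dY (h2F q U) p - 2 * p.2 / Xf p.2

/-- `lb''`. -/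
def lb2F (q : ℝ) (U : Tri) : Fn := fun p => dY (dY (h2F q U)) p - 2 / Xf p.2 - 4 * p.2 ^ 2 / (Xf p.2) ^ 2

/-! ### part A: values -/

theorem laOf_eq (hq : q + 1 ≠ 0) (hg : BgSm g) (U : Tri) (ht : t < 0) (hy : y ∈ Ioo (-1 : ℝ) 1) :
    laOf (mA q U) (mB q g U) t y
      = h1F q U (t, y) + Real.log (1 + Xf y * g.B (t, y)) - Real.log (Xf y) := by
  have hX := Xf_pos hy
  have hD := hg.pos t ht y
  have h1 : mA q U (t, y) + (1 - y ^ 2) * mB q g U (t, y)
      = Real.exp (h1F q U (t, y)) * (1 + Xf y * g.B (t, y)) := mA_add_X_mB hq g U (t, y)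
  unfold laOf
  rw [h1]
  change Real.log (_ / Xf y) = _
  rw [Real.log_div (mul_pos (Real.exp_pos _) hD).ne' hX.ne',
    Real.log_mul (Real.exp_pos _).ne' hD.ne', Real.log_exp]

theorem lbOf_eq (q : ℝ) (U : Tri) (t : ℝ) (hy : y ∈ Ioo (-1 : ℝ) 1) :
    lbOf (mA q U) t y = h2F q U (t, y) + Real.log (Xf y) := by
  have hX := Xf_pos hy
  unfold lbOf mA
  change Real.log (Real.exp (h2F q U (t, y)) * Xf y) = _
  rw [Real.log_mul (Real.exp_pos _).ne' hX.ne', Real.log_exp]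

theorem lcOf_eq (g : Bg) (U : Tri) (t y : ℝ) : lcOf (mC g U) t y = g.w (t, y) + U 1 (t, y) := by
  unfold lcOf mC
  rw [Real.log_exp]

theorem exp_neg_laOf (hq : q + 1 ≠ 0) (hg : BgSm g) (U : Tri) (ht : t < 0) (hy : y ∈ Ioo (-1 : ℝ) 1) :
    Real.exp (-laOf (mA q U) (mB q g U) t y) = e1F q U (t, y) * g.Z (t, y) * Xf y := by
  have hX := Xf_pos hy
  have hD := hg.pos t ht y
  rw [laOf_eq hq hg U ht hy]
  have h1 : -(h1F q U (t, y) + Real.log (1 + Xf y * g.B (t, y)) - Real.log (Xf y))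
      = -h1F q U (t, y) + -Real.log (1 + Xf y * g.B (t, y)) + Real.log (Xf y) := by ring
  rw [h1, Real.exp_add, Real.exp_add, Real.exp_neg (Real.log _), Real.exp_log hD, Real.exp_log hX]
  unfold e1F Bg.Z
  rw [one_div]

theorem exp_neg_lbOf (q : ℝ) (U : Tri) (t : ℝ) (hy : y ∈ Ioo (-1 : ℝ) 1) :
    Real.exp (-lbOf (mA q U) t y) = e2F q U (t, y) / Xf y := by
  have hX := Xf_pos hy
  rw [lbOf_eq q U t hy, neg_add, Real.exp_add, Real.exp_neg (Real.log _), Real.exp_log hX]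
  unfold e2F
  rw [div_eq_mul_inv]

theorem exp_neg_lcOf (g : Bg) (U : Tri) (t y : ℝ) :
    Real.exp (-lcOf (mC g U) t y) = Real.exp (-g.w (t, y)) * e3F U (t, y) := by
  rw [lcOf_eq, neg_add, Real.exp_add]
  rfl

/-! ### part B: `y`-derivatives -/

theorem deriv_laOf (hq : q + 1 ≠ 0) (hg : BgSm g) (hU : ∀ j, Sm (U j)) (ht : t < 0) (hy : y ∈ Ioo (-1 : ℝ) 1) :
    deriv (laOf (mA q U) (mB q g U) t) y = la1F q g U (t, y) := by
  have he : laOf (mA q U) (mB q g U) t =ᶠ[𝓝 y] fun z =>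
      h1F q U (t, z) + Real.log (1 + Xf z * g.B (t, z)) - Real.log (Xf z) := by
    filter_upwards [Ioo_mem_nhds hy.1 hy.2] with z hz
    exact laOf_eq hq hg U ht hz
  rw [he.deriv_eq]
  have h1 := (sm_h1F q hU).hasDerivAt_y ht y
  have h2 : HasDerivAt (fun z => Real.log (1 + Xf z * g.B (t, z))) (g.ap (t, y)) y := by
    have h := (hg.smden.log hg.den_ne).hasDerivAt_y ht y
    rw [hg.dY_log_den ht y] at h
    exact h
  have h3 := (hasDerivAt_Xf y).log (Xf_pos hy).ne'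
  have h4 : HasDerivAt (fun z =>
      h1F q U (t, z) + Real.log (1 + Xf z * g.B (t, z)) - Real.log (Xf z))
      (dY (h1F q U) (t, y) + g.ap (t, y) - -2 * y / Xf y) y := (h1.add h2).sub h3
  rw [h4.deriv]
  show _ = dY (h1F q U) (t, y) + g.ap (t, y) + 2 * y / Xf y
  ring

theorem deriv_lbOf (q : ℝ) (hU : ∀ j, Sm (U j)) (ht : t < 0) (hy : y ∈ Ioo (-1 : ℝ) 1) :
    deriv (lbOf (mA q U) t) y = lb1F q U (t, y) := by
  have he : lbOf (mA q U) t =ᶠ[𝓝 y] fun z => h2F q U (t, z) + Real.log (Xf z) := by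
    filter_upwards [Ioo_mem_nhds hy.1 hy.2] with z hz
    exact lbOf_eq q U t hz
  rw [he.deriv_eq]
  have h1 := (sm_h2F q hU).hasDerivAt_y ht y
  have h3 := (hasDerivAt_Xf y).log (Xf_pos hy).ne'
  have h4 : HasDerivAt (fun z => h2F q U (t, z) + Real.log (Xf z))
      (dY (h2F q U) (t, y) + -2 * y / Xf y) y := h1.add h3
  rw [h4.deriv]
  show _ = dY (h2F q U) (t, y) - 2 * y / Xf y
  ring

theorem deriv_deriv_lbOf (q : ℝ) (hU : ∀ j, Sm (U j)) (ht : t < 0) (hy : y ∈ Ioo (-1 : ℝ) 1) :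
    deriv (deriv (lbOf (mA q U) t)) y = lb2F q U (t, y) := by
  have he : deriv (lbOf (mA q U) t) =ᶠ[𝓝 y] fun z => dY (h2F q U) (t, z) - 2 * z / Xf z := by
    filter_upwards [Ioo_mem_nhds hy.1 hy.2] with z hz
    exact deriv_lbOf q hU ht hz
  rw [he.deriv_eq]
  have hX : Xf y ≠ 0 := (Xf_pos hy).ne'
  have h1 := (sm_h2F q hU).dY.hasDerivAt_y ht y
  have h2 : HasDerivAt (fun z : ℝ => 2 * z / Xf z)
      ((2 * 1 * Xf y - 2 * y * (-2 * y)) / (Xf y) ^ 2) y :=
    ((hasDerivAt_id' y).const_mul 2).div (hasDerivAt_Xf y) hX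
  have h4 : HasDerivAt (fun z => dY (h2F q U) (t, z) - 2 * z / Xf z)
      (dY (dY (h2F q U)) (t, y) - (2 * 1 * Xf y - 2 * y * (-2 * y)) / (Xf y) ^ 2) y := h1.sub h2
  rw [h4.deriv]
  show _ = dY (dY (h2F q U)) (t, y) - 2 / Xf y - 4 * y ^ 2 / (Xf y) ^ 2
  field_simp
  ring

theorem deriv_lcOf (hg : BgSm g) (hU : ∀ j, Sm (U j)) (ht : t < 0) (y : ℝ) :
    deriv (lcOf (mC g U) t) y = g.wp (t, y) + dY (U 1) (t, y) := by
  have he : lcOf (mC g U) t = fun z => g.w (t, z) + U 1 (t, z) := by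
    funext z
    exact lcOf_eq g U t z
  rw [he]
  exact ((hg.smw.hasDerivAt_y ht y).add ((hU 1).hasDerivAt_y ht y)).deriv

theorem deriv_deriv_lcOf (hg : BgSm g) (hU : ∀ j, Sm (U j)) (ht : t < 0) (y : ℝ) :
    deriv (deriv (lcOf (mC g U) t)) y = g.wpp (t, y) + dY (dY (U 1)) (t, y) := by
  have he : deriv (lcOf (mC g U) t) = fun z => g.wp (t, z) + dY (U 1) (t, z) := by
    funext z
    exact deriv_lcOf hg hU ht z
  rw [he]
  exact ((hg.smwp.hasDerivAt_y ht y).add ((hU 1).dY.hasDerivAt_y ht y)).deriv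

/-- `((1 - z²) W_tot)' = V'`. -/
theorem deriv_X_mul_mW (hq : q + 1 ≠ 0) (g : Bg) (U : Tri) (t y : ℝ) :
    deriv (fun z => (1 - z ^ 2) * mW q g U (t, z)) y = dY (VF q g U) (t, y) := by
  have he : (fun z => (1 - z ^ 2) * mW q g U (t, z)) = fun z => VF q g U (t, z) := by
    funext z
    exact X_mul_mW hq g U (t, z)
  rw [he]
  rfl

/-! ### part C: `t`-derivatives -/

theorem dt_laOf (hq : q + 1 ≠ 0) (hg : BgSm g) (hU : ∀ j, Sm (U j)) (ht : t < 0) (hy : y ∈ Ioo (-1 : ℝ) 1) :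
    deriv (fun s => laOf (mA q U) (mB q g U) s y) t
      = dT (h1F q U) (t, y) + Xf y * g.Z (t, y) * dT g.B (t, y) := by
  have he : (fun s => laOf (mA q U) (mB q g U) s y) =ᶠ[𝓝 t] fun s =>
      h1F q U (s, y) + Real.log (1 + Xf y * g.B (s, y)) - Real.log (Xf y) := by
    filter_upwards [Iio_mem_nhds ht] with s hs
    exact laOf_eq hq hg U hs hy
  rw [he.deriv_eq]
  have h1 := (sm_h1F q hU).hasDerivAt_t ht y
  have h2 : HasDerivAt (fun s => Real.log (1 + Xf y * g.B (s, y)))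
      (Xf y * g.Z (t, y) * dT g.B (t, y)) t := by
    have h := (hg.smden.log hg.den_ne).hasDerivAt_t ht y
    rw [hg.dT_log_den ht y] at h
    exact h
  have h4 : HasDerivAt (fun s =>
      h1F q U (s, y) + Real.log (1 + Xf y * g.B (s, y)) - Real.log (Xf y))
      (dT (h1F q U) (t, y) + Xf y * g.Z (t, y) * dT g.B (t, y)) t :=
    (h1.add h2).sub_const _
  exact h4.deriv

theorem dt_lbOf (q : ℝ) (hU : ∀ j, Sm (U j)) (ht : t < 0) (hy : y ∈ Ioo (-1 : ℝ) 1) :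
    deriv (fun s => lbOf (mA q U) s y) t = dT (h2F q U) (t, y) := by
  have he : (fun s => lbOf (mA q U) s y) = fun s => h2F q U (s, y) + Real.log (Xf y) := by
    funext s
    exact lbOf_eq q U s hy
  rw [he]
  exact (((sm_h2F q hU).hasDerivAt_t ht y).add_const _).deriv

theorem dt_lcOf (hg : BgSm g) (hU : ∀ j, Sm (U j)) (ht : t < 0) (y : ℝ) :
    deriv (fun s => lcOf (mC g U) s y) t = dT g.w (t, y) + dT (U 1) (t, y) := by
  have he : (fun s => lcOf (mC g U) s y) = fun s => g.w (s, y) + U 1 (s, y) := by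
    funext s
    exact lcOf_eq g U s y
  rw [he]
  exact ((hg.smw.hasDerivAt_t ht y).add ((hU 1).hasDerivAt_t ht y)).deriv

/-- hygiene. -/
theorem core_pr_la_hygiene : True := by
  have := @la1F.eq_1
  have := @lb1F.eq_1
  have := @lb2F.eq_1
  trivial

end

end Claimed.Agent.R324.Core
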